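import Vale.Agent.P092.H336.PullS4
import Vale.Agent.P092.H370.Po4
import Vale.Agent.P092.H796.Conc

/-!
P092 (helper336), Team P, classical groups over an archimedean field: the flag model by projections
for the singular points and the singular lines of any form, and the synthesis property.
-/

set_option linter.all false

namespace Vale.Agent.P092.H336

open Module Set Topology TopologicalSpace
open Vale.Agent.P092.H100.Gr (Gr Fr sp sp_surj sp_quot sp_eq cb cb_li exists_mn mn)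
open Vale.Agent.P092.H677 (Syn)
open Vale.Agent.P092.H232 (Nin)
open Vale.Agent.P092.H370.Po (SGr Inc)

section comap

variable {Y Z ι Y' Z' : Type*} [TopologicalSpace Y] [TopologicalSpace Z] [TopologicalSpace Y']
  [TopologicalSpace Z'] [Fintype ι]

/-- restriction to a subspace -/
theorem Prj.comap {r : ℂ} {h : ι → ι → C(Y, ℂ)} (H : Prj r h) (f : C(Y', Y))
    (hf : Function.Injective f) : Prj r fun i j => (h i j).comp f where
  st i j := by
    ext x
    exact H.conj i j (f x)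
  id i j x := H.id i j (f x)
  tr x := H.tr (f x)
  sep x y hxy := H.sep (f x) (f y) fun h => hxy (hf h)

/-- restriction of a flag model -/
theorem Flg.comap {I : Y → Z → Prop} {p : ι → ι → C(Y, ℂ)} {n : ι → ι → C(Z, ℂ)}
    (F : Flg I p n) {I' : Y' → Z' → Prop} (f : C(Y', Y)) (hf : Function.Injective f)
    (g : C(Z', Z)) (hg : Function.Injective g) (h : ∀ y z, I' y z → I (f y) (g z)) :
    Flg I' (fun i j => (p i j).comp f) fun i j => (n i j).comp g where
  hp := F.hp.comap f hf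
  hn := F.hn.comap g hg
  one y i j k l := F.one (f y) i j k l
  np y z hyz i j := F.np (f y) (g z) (h y z hyz) i j
  pn y z hyz i j := F.pn (f y) (g z) (h y z hyz) i j
  two y z hyz i j k l := F.two (f y) (g z) (h y z hyz) i j k l

end comap

section pts

variable {k : Type*} [NontriviallyNormedField k] {ι : Type*} [Fintype ι] {τ : k →+* ℂ}

lemma cb1 (A : Matrix (Fin 1) (Fin 1) k) (v : Fin 1 → ι → k) :
    cb A v 0 = A 0 0 • v 0 := by
  change ∑ d, A 0 d • v d = _
  rw [Fin.sum_univ_one]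

/-- the projection of a one dimensional space -/
noncomputable def pG (τ : k →+* ℂ) (X : Gr k ι 1) : ι → ι → ℂ :=
  P1 (ex τ ((sp_surj X).choose.1 0))

lemma pG_sp (v : Fr k ι 1) : pG τ (sp v) = P1 (ex τ (v.1 0)) := by
  obtain ⟨A, hA, h⟩ := (sp_eq v (sp_surj (sp v)).choose).1 (sp_surj (sp v)).choose_spec.symm
  unfold pG
  rw [h, cb1]
  have : ex τ (A 0 0 • v.1 0) = fun i => τ (A 0 0) * ex τ (v.1 0) i := by
    funext i
    change τ (A 0 0 * v.1 0 i) = _
    rw [map_mul]; rfl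
  rw [this, P1_smul]
  refine (map_ne_zero τ).2 ?_
  rwa [Matrix.det_fin_one] at hA

lemma pG_cont (hτ : ∀ x, ‖τ x‖ = ‖x‖) (i j : ι) : Continuous fun X : Gr k ι 1 => pG τ X i j := by
  rw [sp_quot.continuous_iff]
  have e : (fun X : Gr k ι 1 => pG τ X i j) ∘ sp = fun v : Fr k ι 1 => P1 (ex τ (v.1 0)) i j := by
    funext v
    exact congrFun (congrFun (pG_sp v) i) j
  rw [e]
  have h0 : Continuous fun v : Fr k ι 1 => v.1 0 :=
    (continuous_apply 0).comp H100.Gr.fr_val_cont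
  unfold P1
  refine Continuous.div ?_ ((nsq_cont hτ).comp h0) fun v => ?_
  · exact ((ex_cont hτ i).comp h0).mul (cj_cont.comp ((ex_cont hτ j).comp h0))
  · exact_mod_cast nsq_ex (v.2.ne_zero 0)

lemma fr0_mem (v : Fr k ι 1) : v.1 0 ∈ (sp v).1 := Submodule.subset_span ⟨0, rfl⟩

/-- the projections of points -/
noncomputable def pGC (hτ : ∀ x, ‖τ x‖ = ‖x‖) (i j : ι) : C(Gr k ι 1, ℂ) :=
  ⟨fun X => pG τ X i j, pG_cont hτ i j⟩

/-- the projections of lines -/
noncomputable def nGC (hτ : ∀ x, ‖τ x‖ = ‖x‖) (i j : ι) : C(Gr k ι 2, ℂ) :=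
  ⟨fun L => nG τ L i j, nG_cont hτ i j⟩

lemma pGC_apply (hτ : ∀ x, ‖τ x‖ = ‖x‖) (i j : ι) (X : Gr k ι 1) : pGC hτ i j X = pG τ X i j := rfl

lemma nGC_apply (hτ : ∀ x, ‖τ x‖ = ‖x‖) (i j : ι) (L : Gr k ι 2) : nGC hτ i j L = nG τ L i j := rfl

theorem prj_pGC (hτ : ∀ x, ‖τ x‖ = ‖x‖) : Prj 1 (pGC (ι := ι) hτ) where
  st i j := by
    ext X
    obtain ⟨v, rfl⟩ := sp_surj X
    change cj (pG τ (sp v) i j) = pG τ (sp v) j i
    rw [pG_sp, P1_st]
  id i j X := by
    obtain ⟨v, rfl⟩ := sp_surj X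
    simp only [pGC_apply, pG_sp]
    exact P1_id (nsq_ex (v.2.ne_zero 0)) i j
  tr X := by
    obtain ⟨v, rfl⟩ := sp_surj X
    simp only [pGC_apply, pG_sp]
    exact P1_tr (nsq_ex (v.2.ne_zero 0))
  sep x y hxy := by
    classical
    by_contra hc
    push Not at hc
    obtain ⟨v, rfl⟩ := sp_surj x
    obtain ⟨w, rfl⟩ := sp_surj y
    have hle : ¬ (sp w).1 ≤ (sp v).1 := fun hle =>
      hxy (Subtype.ext (Submodule.eq_of_le_of_finrank_eq hle
        ((sp w).2.trans (sp v).2.symm)).symm)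
    have hy : w.1 0 ∉ (sp v).1 := by
      intro hy
      refine hle ?_
      change Submodule.span k (range w.1) ≤ _
      rw [Submodule.span_le]
      rintro _ ⟨i, rfl⟩
      rw [Subsingleton.elim i 0]
      exact hy
    obtain ⟨f, hfy, hf⟩ := Submodule.exists_le_ker_of_notMem hy
    have hx : f (v.1 0) = 0 := hf (fr0_mem v)
    obtain ⟨j, hj⟩ := Function.ne_iff.1 (ex_ne (τ := τ) (w.2.ne_zero 0))
    have h1 : ∑ i, τ (f (Pi.single i 1)) * P1 (ex τ (v.1 0)) i j = 0 :=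
      P1_ker (by rw [form_ex, hx, map_zero]) j
    have h2 : ∑ i, τ (f (Pi.single i 1)) * P1 (ex τ (w.1 0)) i j =
        τ (f (w.1 0)) * (cj (ex τ (w.1 0) j) / (nsq (ex τ (w.1 0)) : ℂ)) := by
      rw [← form_ex τ f (w.1 0), Finset.sum_mul]
      exact Finset.sum_congr rfl fun i _ => by unfold P1; ring
    have h3 : ∑ i, τ (f (Pi.single i 1)) * P1 (ex τ (v.1 0)) i j =
        ∑ i, τ (f (Pi.single i 1)) * P1 (ex τ (w.1 0)) i j :=
      Finset.sum_congr rfl fun i _ => by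
        have := hc i j
        rw [pGC_apply, pGC_apply, pG_sp, pG_sp] at this
        rw [this]
    rw [h1, h2] at h3
    have h4 : (nsq (ex τ (w.1 0)) : ℂ) ≠ 0 := by exact_mod_cast nsq_ex (w.2.ne_zero 0)
    have h5 : cj (ex τ (w.1 0) j) ≠ 0 := by
      intro h0
      apply hj
      have := congrArg cj h0
      rwa [cj_cj, cj_zero] at this
    exact (mul_ne_zero ((map_ne_zero τ).2 hfy) (div_ne_zero h5 h4)) h3.symm

/-- a nonzero vector of a line -/
lemma exists_vecG (L : Gr k ι 2) : ∃ y ∈ L.1, y ≠ 0 := by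
  obtain ⟨v, rfl⟩ := sp_surj L
  exact ⟨v.1 0, Submodule.subset_span ⟨0, rfl⟩, v.2.ne_zero 0⟩

theorem prj_nGC (hτ : ∀ x, ‖τ x‖ = ‖x‖) : Prj 2 (nGC (ι := ι) hτ) where
  st i j := by
    ext l
    obtain ⟨y, hy, hy0⟩ := exists_vecG l
    exact (pl_nG hy0 hy).st i j
  id i j l := by
    obtain ⟨y, hy, hy0⟩ := exists_vecG l
    exact (pl_nG hy0 hy).id (nsq_ex hy0) i j
  tr l := by
    obtain ⟨y, hy, hy0⟩ := exists_vecG l
    exact (pl_nG hy0 hy).tr (nsq_ex hy0)
  sep l l' h := by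
    by_contra hc
    push Not at hc
    apply h
    refine nG_inj (τ := τ) ?_
    funext i j
    exact hc i j

/-- **the flag model of the points and lines of a projective space over `ℝ` and `ℂ`** -/
theorem flgG (hτ : ∀ x, ‖τ x‖ = ‖x‖) :
    Flg (fun (X : Gr k ι 1) (L : Gr k ι 2) => X.1 ≤ L.1) (pGC hτ) (nGC hτ) where
  hp := prj_pGC hτ
  hn := prj_nGC hτ
  one X i j a b := by
    obtain ⟨v, rfl⟩ := sp_surj X
    simp only [pGC_apply, pG_sp]
    exact P1_one _ i j a b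
  np X z h i j := by
    obtain ⟨v, rfl⟩ := sp_surj X
    simp only [pGC_apply, pG_sp, nGC_apply]
    exact (pl_nG (v.2.ne_zero 0) (h (fr0_mem v))).np (nsq_ex (v.2.ne_zero 0)) i j
  pn X z h i j := by
    obtain ⟨v, rfl⟩ := sp_surj X
    simp only [pGC_apply, pG_sp, nGC_apply]
    exact (pl_nG (v.2.ne_zero 0) (h (fr0_mem v))).pn (nsq_ex (v.2.ne_zero 0)) i j
  two X z h i j a b := by
    obtain ⟨v, rfl⟩ := sp_surj X
    simp only [pGC_apply, pG_sp, nGC_apply]
    exact (pl_nG (v.2.ne_zero 0) (h (fr0_mem v))).two i j a b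

end pts

section sgr

variable {k : Type} [NontriviallyNormedField k] {n : Type} [Fintype n] [DecidableEq n]
  {σ : k →+* k} {J : Matrix n n k} {τ : k →+* ℂ}

/-- the inclusion of the singular spaces -/
def sIn {j : ℕ} : C(SGr σ J j, Gr k n j) := ⟨fun X => X.1, SGr.val_cont⟩

theorem sIn_inj {j : ℕ} : Function.Injective (sIn (σ := σ) (J := J) (j := j)) :=
  fun _ _ h => Subtype.ext h

/-- **the flag model of the singular points and lines of a form over `ℝ` and `ℂ`** -/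
theorem flgS (hτ : ∀ x, ‖τ x‖ = ‖x‖) :
    Flg (fun (x : SGr σ J 1) (l : SGr σ J 2) => Inc x l) (fun i j => (pGC hτ i j).comp sIn)
      fun i j => (nGC hτ i j).comp sIn :=
  (flgG hτ).comap sIn sIn_inj sIn sIn_inj fun _ _ h => h

variable {K : Type*} [NormedAddCommGroup K] [InnerProductSpace ℂ K] [CompleteSpace K]
  [ProperSpace k] [Fact (Continuous σ)]

/-- **[CL-SYN-R]** `k = ℝ` or `ℂ`, any form: both synthesis properties -/
theorem syn_sgr (hτ : ∀ x, ‖τ x‖ = ‖x‖) {b : C(SGr σ J 1, ℂ) →⋆ₐ[ℂ] (K →L[ℂ] K)}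
    {l : C(SGr σ J 2, ℂ) →⋆ₐ[ℂ] (K →L[ℂ] K)}
    (h : H796.PL (fun (x : SGr σ J 1) (l : SGr σ J 2) => Inc x l) b l) : Syn b l ∧ Syn l b :=
  ⟨syn_cc (flgS hτ) H370.Po.inc_closed b l h.com h.inc,
    syn_col (flgS hτ) H370.Po.inc_closed b l h.com h.inc⟩

end sgr

end Vale.Agent.P092.H336
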