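import Vale.Agent.P092.H99.CL.One
import Vale.Agent.P092.H336.SynGr
import Vale.Agent.P092.H515.RkDef

/-!
P092 (helper336), Team P, track CL over `ℝ` and `ℂ`, Witt index 2, row [CL-SYN-R]:
`H99.CL.SynStmt L` for every `L` whose points and maximal subspaces are the singular points and
lines of a form (any form, any group acting: `CL.lt` and `CL.ltO` at `s = 0`).
-/

set_option linter.all false

open scoped InnerProductSpace ENNReal
open Filter Topology ContinuousLinearMap MeasureTheory TopologicalSpace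

namespace Vale.Agent.P092.H336.CL

open Vale.Agent.P092.CL
open Vale.Agent.P092.H370.Po (SGr Inc)
open Vale.Agent.P092.H515.St (LocK)

variable {k : Type} [NontriviallyNormedField k] [ProperSpace k] {n : Type} [Fintype n]
  [DecidableEq n] {σ : k →+* k} {J : Matrix n n k} [Fact (Continuous σ)]
variable {S V₁ V₂ : Type} [Group S] [MeasurableSpace V₁] [MeasurableSpace V₂]
  {L : Lt S (SGr σ J 1) (SGr σ J 2) V₁ V₂}

/-- **[CL-SYN-R]**, `k = ℝ` or `ℂ`, every form -/
theorem synStmt_SGr {τ : k →+* ℂ} (hτ : ∀ x, ‖τ x‖ = ‖x‖) (hIn : ∀ x l, L.In x l ↔ Inc x l) :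
    H99.CL.SynStmt L := by
  intro K _ _ _ b l h
  have e : L.In = fun (x : SGr σ J 1) (l : SGr σ J 2) => Inc x l := by
    funext x l
    exact propext (hIn x l)
  rw [e] at h
  exact syn_sgr hτ h

/-- **[CL-SYN]**, every local field, every form with unique lines (`GQ L.In`) -/
theorem synStmt_loc (hk : LocK k) (hIn : ∀ x l, L.In x l ↔ Inc x l) (hQ : SP.GQ L.In)
    (htd : IsUltrametricDist k → TotallyDisconnectedSpace (SGr σ J 1) ∧
      TotallyDisconnectedSpace (SGr σ J 2)) : H99.CL.SynStmt L := by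
  cases hk with
  | real φ h =>
    refine synStmt_SGr (τ := (algebraMap ℝ ℂ).comp φ.toRingHom) (fun x => ?_) hIn
    rw [← h x]
    exact Complex.norm_real _
  | cplx φ h => exact synStmt_SGr (τ := φ.toRingHom) h hIn
  | ultra h =>
    obtain ⟨h1, h2⟩ := htd h
    have e : L.In = fun (x : SGr σ J 1) (l : SGr σ J 2) => Inc x l := by
      funext x l
      exact propext (hIn x l)
    intro K _ _ _ b l h
    rw [e] at h hQ
    exact syn_gq hQ H370.Po.inc_closed h

/-- **[CL-SYN-R]** over `ℝ` -/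
theorem synStmt_R {σ : ℝ →+* ℝ} {J : Matrix n n ℝ} [Fact (Continuous σ)]
    {L : Lt S (SGr σ J 1) (SGr σ J 2) V₁ V₂} (hIn : ∀ x l, L.In x l ↔ Inc x l) :
    H99.CL.SynStmt L :=
  synStmt_SGr (τ := algebraMap ℝ ℂ) (fun x => Complex.norm_real x) hIn

end Vale.Agent.P092.H336.CL
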