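import Vale.Agent.P092.H336.CLSyn
import Vale.Agent.P092.CL.LtO

/-!
P092 (helper336), row [CL-SYN-R]: the letters `CL.lt` and `CL.ltO` at `s = 0`.
-/

set_option linter.all false

open MeasureTheory

namespace Vale.Agent.P092.H336.CL

open Vale.Agent.P092.CL
open Vale.Agent.P092.H303 (FormGroup Idx hyp)
open Vale.Agent.P092.H714.Cl (Frm)

variable {k : Type} [NontriviallyNormedField k] [ProperSpace k] {ι : Type} [Fintype ι]
  [DecidableEq ι] {σ : k →+* k} {ε : k} {J₀ : Matrix ι ι k}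

/-- **[CL-SYN-R]** for symplectic and unitary groups of Witt index `2` over `ℝ` and `ℂ` -/
theorem synStmt_lt [MeasurableSpace k] [Fact (Continuous σ)] {τ : k →+* ℂ}
    (hτ : ∀ x, ‖τ x‖ = ‖x‖) (hF : Frm σ ε (hyp (0 + 2) ε J₀)) {w : k} (hw : w ≠ 0)
    (hσ : σ w = w) (μ₁ : Measure k) (μ₂ : Measure (V2 σ ε)) :
    H99.CL.SynStmt (lt (s := 0) hF hw hσ μ₁ μ₂) :=
  synStmt_SGr hτ fun _ _ => Iff.rfl

/-- **[CL-SYN-R]** for orthogonal groups of Witt index `2` over `ℝ` and `ℂ` -/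
theorem synStmt_ltO [MeasurableSpace k] [Fact (Continuous (RingHom.id k))] {τ : k →+* ℂ}
    (hτ : ∀ x, ‖τ x‖ = ‖x‖) (h : OF J₀) {a : k} (ha : a ≠ 0) (μ₁ : Measure k)
    (μ₂ : Measure (ι → k)) : H99.CL.SynStmt (ltO h 0 ha μ₁ μ₂) :=
  synStmt_SGr hτ fun _ _ => Iff.rfl

end Vale.Agent.P092.H336.CL
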