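import Mathlib

/-!
P092 (helper336): rank one and rank two projections in coordinates.
-/

set_option linter.all false

namespace Vale.Agent.P092.H336

open Finset

section alg

variable {ι : Type*} [Fintype ι]

/-- the squared length -/
noncomputable def nsq (u : ι → ℂ) : ℝ := ∑ a, ‖u a‖ ^ 2

/-- conjugation -/
noncomputable def cj (z : ℂ) : ℂ := (starRingEnd ℂ) z

lemma cj_cj (z : ℂ) : cj (cj z) = z := Complex.conj_conj z
lemma cj_mul (z w : ℂ) : cj (z * w) = cj z * cj w := map_mul _ _ _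
lemma cj_add (z w : ℂ) : cj (z + w) = cj z + cj w := map_add _ _ _
lemma cj_sub (z w : ℂ) : cj (z - w) = cj z - cj w := map_sub _ _ _
lemma cj_div (z w : ℂ) : cj (z / w) = cj z / cj w := map_div₀ _ _ _
lemma cj_real (r : ℝ) : cj (r : ℂ) = r := Complex.conj_ofReal r
lemma cj_sum {α : Type*} (s : Finset α) (f : α → ℂ) : cj (∑ a ∈ s, f a) = ∑ a ∈ s, cj (f a) :=
  map_sum _ _ _
lemma mul_cj (z : ℂ) : z * cj z = ((‖z‖ ^ 2 : ℝ) : ℂ) := by
  unfold cj
  rw [Complex.mul_conj, Complex.normSq_eq_norm_sq]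
lemma cj_zero : cj 0 = 0 := map_zero _

lemma sum_mul_cj (u : ι → ℂ) : ∑ a, u a * cj (u a) = (nsq u : ℂ) := by
  unfold nsq
  push_cast
  exact sum_congr rfl fun a _ => by rw [mul_cj]; push_cast; rfl

lemma nsq_nonneg (u : ι → ℂ) : 0 ≤ nsq u := sum_nonneg fun a _ => by positivity

lemma nsq_ne {u : ι → ℂ} {i : ι} (h : u i ≠ 0) : nsq u ≠ 0 := by
  intro h0
  have := (sum_eq_zero_iff_of_nonneg (fun a _ => by positivity)).1 h0 i (mem_univ i)
  exact h (norm_eq_zero.1 (pow_eq_zero_iff two_ne_zero |>.1 this))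

lemma nsq_ne' {u : ι → ℂ} (h : u ≠ 0) : nsq u ≠ 0 := by
  obtain ⟨i, hi⟩ := Function.ne_iff.1 h
  exact nsq_ne hi

lemma ne_of_nsq {u : ι → ℂ} (h : nsq u ≠ 0) : u ≠ 0 := by
  rintro rfl
  exact h (by simp [nsq])

/-- the projection onto a vector -/
noncomputable def P1 (u : ι → ℂ) (i j : ι) : ℂ := u i * cj (u j) / (nsq u : ℂ)

lemma P1_smul {c : ℂ} (hc : c ≠ 0) (u : ι → ℂ) : P1 (fun i => c * u i) = P1 u := by
  funext i j
  unfold P1
  have h1 : ((nsq fun i => c * u i : ℝ) : ℂ) = c * cj c * (nsq u : ℂ) := by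
    rw [← sum_mul_cj, ← sum_mul_cj, mul_sum]
    exact sum_congr rfl fun a _ => by rw [cj_mul]; ring
  have h2 : c * cj c ≠ 0 := by
    rw [mul_cj]
    exact_mod_cast pow_ne_zero 2 (norm_ne_zero_iff.2 hc)
  rw [h1, cj_mul, show c * u i * (cj c * cj (u j)) = c * cj c * (u i * cj (u j)) by ring,
    mul_div_mul_left _ _ h2]

lemma P1_st (u : ι → ℂ) (i j : ι) : cj (P1 u i j) = P1 u j i := by
  unfold P1
  rw [cj_div, cj_mul, cj_cj, cj_real, mul_comm]

lemma P1_one (u : ι → ℂ) (i j k l : ι) : P1 u i j * P1 u k l = P1 u i l * P1 u k j := by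
  unfold P1
  ring

lemma P1_tr {u : ι → ℂ} (hu : nsq u ≠ 0) : ∑ a, P1 u a a = 1 := by
  unfold P1
  rw [← sum_div, sum_mul_cj, div_self (by exact_mod_cast hu)]

lemma P1_id {u : ι → ℂ} (hu : nsq u ≠ 0) (i j : ι) : ∑ a, P1 u i a * P1 u a j = P1 u i j := by
  have : ∀ a, P1 u i a * P1 u a j = P1 u i j * P1 u a a := fun a => P1_one u i a a j
  rw [sum_congr rfl fun a _ => this a, ← mul_sum, P1_tr hu, mul_one]

lemma P1_orth {u w : ι → ℂ} (h : ∑ a, w a * cj (u a) = 0) (i j : ι) :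
    ∑ a, P1 u i a * P1 w a j = 0 := by
  have : ∀ a, P1 u i a * P1 w a j = (w a * cj (u a)) * (u i * cj (w j) / ((nsq u : ℂ) * nsq w)) := by
    intro a
    unfold P1
    rw [div_mul_div_comm]
    ring
  rw [sum_congr rfl fun a _ => this a, ← sum_mul, h, zero_mul]

lemma orth_symm {u w : ι → ℂ} (h : ∑ a, w a * cj (u a) = 0) : ∑ a, u a * cj (w a) = 0 := by
  have := congrArg cj h
  rw [cj_sum, cj_zero] at this
  rw [← this]
  exact sum_congr rfl fun a _ => by rw [cj_mul, cj_cj, mul_comm]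

/-- the Pluecker coordinates -/
def Q (u w : ι → ℂ) (i j : ι) : ℂ := u i * w j - w i * u j

/-- the projection onto a plane -/
noncomputable def N2 (q : ι → ι → ℂ) (i j : ι) : ℂ :=
  (∑ a, q i a * cj (q j a)) / (((∑ a, ∑ b, ‖q a b‖ ^ 2) / 2 : ℝ) : ℂ)

lemma sum2 (q : ι → ι → ℂ) : ((∑ a, ∑ b, ‖q a b‖ ^ 2 : ℝ) : ℂ) = ∑ a, ∑ b, q a b * cj (q a b) := by
  push_cast
  exact sum_congr rfl fun a _ => sum_congr rfl fun b _ => by rw [mul_cj]; push_cast; rfl

lemma N2_smul {c : ℂ} (hc : c ≠ 0) (q : ι → ι → ℂ) : N2 (fun i j => c * q i j) = N2 q := by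
  funext i j
  unfold N2
  have h2 : c * cj c ≠ 0 := by
    rw [mul_cj]
    exact_mod_cast pow_ne_zero 2 (norm_ne_zero_iff.2 hc)
  have h1 : (((∑ a, ∑ b, ‖c * q a b‖ ^ 2) / 2 : ℝ) : ℂ) =
      c * cj c * (((∑ a, ∑ b, ‖q a b‖ ^ 2) / 2 : ℝ) : ℂ) := by
    have e : (∑ a, ∑ b, ‖c * q a b‖ ^ 2 : ℝ) = ‖c‖ ^ 2 * ∑ a, ∑ b, ‖q a b‖ ^ 2 := by
      rw [mul_sum]
      refine sum_congr rfl fun a _ => ?_
      rw [mul_sum]
      refine sum_congr rfl fun b _ => ?_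
      rw [norm_mul]; ring
    rw [mul_cj, e]
    push_cast
    ring
  have h3 : ∑ a, c * q i a * cj (c * q j a) = c * cj c * ∑ a, q i a * cj (q j a) := by
    rw [mul_sum]
    exact sum_congr rfl fun a _ => by rw [cj_mul]; ring
  rw [h1, h3, mul_div_mul_left _ _ h2]

lemma Q_sum {u w : ι → ℂ} (h : ∑ a, w a * cj (u a) = 0) (i j : ι) :
    ∑ a, Q u w i a * cj (Q u w j a) =
      u i * cj (u j) * (nsq w : ℂ) + w i * cj (w j) * (nsq u : ℂ) := by
  have h' := orth_symm h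
  have e : ∀ a, Q u w i a * cj (Q u w j a) = u i * cj (u j) * (w a * cj (w a)) +
      w i * cj (w j) * (u a * cj (u a)) - u i * cj (w j) * (w a * cj (u a)) -
      w i * cj (u j) * (u a * cj (w a)) := by
    intro a
    unfold Q
    rw [cj_sub, cj_mul, cj_mul]
    ring
  rw [sum_congr rfl fun a _ => e a, sum_sub_distrib, sum_sub_distrib, sum_add_distrib,
    ← mul_sum, ← mul_sum, ← mul_sum, ← mul_sum, sum_mul_cj, sum_mul_cj, h, h']
  ring

lemma N2_orth {u w : ι → ℂ} (hu : nsq u ≠ 0) (hw : nsq w ≠ 0) (h : ∑ a, w a * cj (u a) = 0)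
    (i j : ι) : N2 (Q u w) i j = P1 u i j + P1 w i j := by
  unfold N2 P1
  have h1 : (((∑ a, ∑ b, ‖Q u w a b‖ ^ 2) / 2 : ℝ) : ℂ) = (nsq u : ℂ) * (nsq w : ℂ) := by
    have e := sum2 (Q u w)
    rw [sum_congr rfl fun a _ => Q_sum h a a, sum_add_distrib, ← sum_mul, ← sum_mul, sum_mul_cj,
      sum_mul_cj] at e
    rw [Complex.ofReal_div, e]
    push_cast
    ring
  have hu' : (nsq u : ℂ) ≠ 0 := by exact_mod_cast hu
  have hw' : (nsq w : ℂ) ≠ 0 := by exact_mod_cast hw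
  rw [h1, Q_sum h]
  field_simp

/-- orthogonalisation -/
lemma exists_orth {u w : ι → ℂ} (hu : nsq u ≠ 0) (hQ : Q u w ≠ 0) : ∃ w' : ι → ℂ,
    nsq w' ≠ 0 ∧ ∑ a, w' a * cj (u a) = 0 ∧ Q u w' = Q u w ∧ ∃ c : ℂ, ∀ i, w' i = w i - c * u i := by
  have hu' : (nsq u : ℂ) ≠ 0 := by exact_mod_cast hu
  set c : ℂ := (∑ a, w a * cj (u a)) / (nsq u : ℂ) with hc
  have hq : Q u (fun i => w i - c * u i) = Q u w := by
    funext i j
    unfold Q
    ring
  refine ⟨fun i => w i - c * u i, ?_, ?_, hq, c, fun i => rfl⟩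
  · refine nsq_ne' fun h0 => hQ ?_
    rw [← hq, h0]
    funext i j
    simp [Q]
  · have : ∀ a, (w a - c * u a) * cj (u a) = w a * cj (u a) - c * (u a * cj (u a)) := fun a => by
      ring
    rw [sum_congr rfl fun a _ => this a, sum_sub_distrib, ← mul_sum, sum_mul_cj, hc,
      div_mul_cancel₀ _ hu', sub_self]

/-- a rank two projection with a vector `u` in its range -/
structure Pl (u : ι → ℂ) (n : ι → ι → ℂ) : Prop where
  ex : ∃ w : ι → ℂ, nsq w ≠ 0 ∧ ∑ a, w a * cj (u a) = 0 ∧ ∀ i j, n i j = P1 u i j + P1 w i j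

variable {u : ι → ℂ} {n : ι → ι → ℂ}

lemma Pl.st (h : Pl u n) (i j : ι) : cj (n i j) = n j i := by
  obtain ⟨w, -, -, hn⟩ := h.ex
  rw [hn, hn, cj_add, P1_st, P1_st]

lemma Pl.np (h : Pl u n) (hu : nsq u ≠ 0) (i j : ι) : ∑ a, n i a * P1 u a j = P1 u i j := by
  obtain ⟨w, hw, ho, hn⟩ := h.ex
  simp only [hn, add_mul, sum_add_distrib]
  rw [P1_id hu, P1_orth (orth_symm ho), add_zero]

lemma Pl.pn (h : Pl u n) (hu : nsq u ≠ 0) (i j : ι) : ∑ a, P1 u i a * n a j = P1 u i j := by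
  obtain ⟨w, hw, ho, hn⟩ := h.ex
  simp only [hn, mul_add, sum_add_distrib]
  rw [P1_id hu, P1_orth ho, add_zero]

lemma Pl.two (h : Pl u n) (i j k l : ι) : (n i j - P1 u i j) * (n k l - P1 u k l) =
    (n i l - P1 u i l) * (n k j - P1 u k j) := by
  obtain ⟨w, hw, ho, hn⟩ := h.ex
  simp only [hn, add_sub_cancel_left]
  exact P1_one w i j k l

lemma Pl.id (h : Pl u n) (hu : nsq u ≠ 0) (i j : ι) : ∑ a, n i a * n a j = n i j := by
  obtain ⟨w, hw, ho, hn⟩ := h.ex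
  simp only [hn, mul_add, add_mul, sum_add_distrib]
  rw [P1_id hu, P1_id hw, P1_orth ho, P1_orth (orth_symm ho)]
  ring

lemma Pl.tr (h : Pl u n) (hu : nsq u ≠ 0) : ∑ a, n a a = 2 := by
  obtain ⟨w, hw, ho, hn⟩ := h.ex
  simp only [hn, sum_add_distrib]
  rw [P1_tr hu, P1_tr hw]
  norm_num

/-- a linear form which kills `u` and `w` kills the projection -/
lemma P1_ker {u : ι → ℂ} {f : ι → ℂ} (h : ∑ i, f i * u i = 0) (j : ι) :
    ∑ i, f i * P1 u i j = 0 := by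
  have : ∀ i, f i * P1 u i j = f i * u i * (cj (u j) / (nsq u : ℂ)) := fun i => by
    unfold P1; ring
  rw [sum_congr rfl fun i _ => this i, ← sum_mul, h, zero_mul]

lemma P1_fix {u : ι → ℂ} (hu : nsq u ≠ 0) (i : ι) : ∑ j, P1 u i j * u j = u i := by
  have hu' : (nsq u : ℂ) ≠ 0 := by exact_mod_cast hu
  have : ∀ j, P1 u i j * u j = u i / (nsq u : ℂ) * (u j * cj (u j)) := fun j => by
    unfold P1; ring
  rw [sum_congr rfl fun i _ => this i, ← mul_sum, sum_mul_cj, div_mul_cancel₀ _ hu']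

lemma P1_kill {u w : ι → ℂ} (h : ∑ a, u a * cj (w a) = 0) (i : ι) : ∑ j, P1 w i j * u j = 0 := by
  have : ∀ j, P1 w i j * u j = w i / (nsq w : ℂ) * (u j * cj (w j)) := fun j => by
    unfold P1; ring
  rw [sum_congr rfl fun i _ => this i, ← mul_sum, h, mul_zero]

lemma Pl.fix (h : Pl u n) (hu : nsq u ≠ 0) (i : ι) : ∑ j, n i j * u j = u i := by
  obtain ⟨w, hw, ho, hn⟩ := h.ex
  simp only [hn, add_mul, sum_add_distrib]
  rw [P1_fix hu, P1_kill (orth_symm ho), add_zero]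

end alg

end Vale.Agent.P092.H336
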