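import Vale.Agent.P092.H677.PCon

/-!
P092 (helper336): the pull-out lemma for the concurrent lines step of Team P.

`X` = points, `Z` = lines of the target (or the dual), `I` = incidence. `b`, `l` are commuting
calculi of an incident source pair. `TT` is a closed space of operators which commute with `b` and
which is stable under left and right multiplication by `l`. If lines are given near two different
concurrent lines by linear equations, then `b g * (l a * T * l a') ∈ TT` for disjoint supports of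
`a`, `a'`.
-/

set_option linter.all false

namespace Vale.Agent.P092.H336

open Set Topology
open Vale.Agent.P092.H232 (two_ind split_inc split_fun Nin tsupport_mul_l tsupport_mul_r)
open Vale.Agent.P092.H835 (exists_cut isClosed_meet isClosed_meet')

section neu

theorem mem_of_neumann {B : Type*} [NormedAddCommGroup B] [NormedSpace ℂ B]
    (TT : Submodule ℂ B) (hc : IsClosed (TT : Set B)) (L : B →L[ℂ] B) (hL : ‖L‖ < 1)
    (hLT : ∀ T ∈ TT, L T ∈ TT) {X C : B} (hC : C ∈ TT) (h : X = C + L X) : X ∈ TT := by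
  have pw : ∀ n : ℕ, (L ^ n) C ∈ TT := by
    intro n
    induction n with
    | zero => simpa using hC
    | succ n ih =>
      have : (L ^ (n + 1)) C = L ((L ^ n) C) := by rw [pow_succ']; rfl
      rw [this]
      exact hLT _ ih
  have key : ∀ n : ℕ, X - (L ^ n) X ∈ TT := by
    intro n
    induction n with
    | zero => simp
    | succ n ih =>
      have e : (L ^ n) X = (L ^ n) C + (L ^ (n + 1)) X := by
        conv_lhs => rw [h]
        rw [map_add, pow_succ]
        rfl
      have : X - (L ^ (n + 1)) X = (X - (L ^ n) X) + (L ^ n) C := by rw [e]; abel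
      rw [this]
      exact TT.add_mem ih (pw n)
  have hlim : Filter.Tendsto (fun n => X - (L ^ n) X) Filter.atTop (𝓝 X) := by
    have h0 : Filter.Tendsto (fun n => (L ^ n) X) Filter.atTop (𝓝 0) := by
      refine squeeze_zero_norm (a := fun n => ‖L‖ ^ n * ‖X‖) (fun n => ?_) ?_
      · induction n with
        | zero => simp
        | succ n ih =>
          have e : (L ^ (n + 1)) X = L ((L ^ n) X) := by rw [pow_succ']; rfl
          calc ‖(L ^ (n + 1)) X‖ ≤ ‖L‖ * ‖(L ^ n) X‖ := by rw [e]; exact L.le_opNorm _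
            _ ≤ ‖L‖ * (‖L‖ ^ n * ‖X‖) := mul_le_mul_of_nonneg_left ih (norm_nonneg _)
            _ = ‖L‖ ^ (n + 1) * ‖X‖ := by ring
      · simpa using (tendsto_pow_atTop_nhds_zero_of_lt_one (norm_nonneg L) hL).mul_const ‖X‖
    simpa using tendsto_const_nhds.sub h0
  exact hc.mem_of_tendsto hlim (Filter.Eventually.of_forall key)

end neu

section rel

variable {X Z K : Type*} [TopologicalSpace X] [CompactSpace X] [T2Space X]
  [TopologicalSpace Z] [CompactSpace Z] [T2Space Z]
  [NormedAddCommGroup K] [InnerProductSpace ℂ K] [CompleteSpace K]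

/-- a cut-off at a point -/
theorem cut1 {Y : Type*} [TopologicalSpace Y] [CompactSpace Y] [T2Space Y] (y : Y) (U : Set Y)
    (hU : IsOpen U) (hy : y ∈ U) : ∃ χ : C(Y, ℂ), tsupport ⇑χ ⊆ U ∧ χ y = 1 := by
  obtain ⟨χ, h1, h2, -⟩ := exists_cut (F := {y}) isClosed_singleton hU
    (singleton_subset_iff.2 hy)
  refine ⟨χ, h1, ?_⟩
  by_contra hne
  exact disjoint_left.1 h2 (subset_tsupport _ (fun h0 => hne (sub_eq_zero.1 h0).symm)) rfl

/-- a character of `C(X)` is an evaluation -/
theorem char_eval (φ : C(X, ℂ) →ₐ[ℂ] ℂ) : ∃ x : X, ∀ f, φ f = f x := by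
  obtain ⟨x, hx⟩ := (WeakDual.CharacterSpace.continuousMapEval_bijective (X := X) (𝕜 := ℂ)).2
    (WeakDual.CharacterSpace.equivAlgHom.symm φ)
  refine ⟨x, fun f => ?_⟩
  have h2 : (WeakDual.CharacterSpace.continuousMapEval X ℂ x) f =
      (WeakDual.CharacterSpace.equivAlgHom.symm φ) f := by rw [hx]
  simpa using h2.symm

/-- **EXACT INCIDENCE SYNTHESIS FOR COMMUTING CALCULI.** -/
theorem rel_zero {I : X → Z → Prop} (hI : IsClosed {q : X × Z | I q.1 q.2})
    (b : C(X, ℂ) →⋆ₐ[ℂ] (K →L[ℂ] K)) (l : C(Z, ℂ) →⋆ₐ[ℂ] (K →L[ℂ] K))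
    (hc : ∀ g a, Commute (b g) (l a)) (hin : ∀ g a, Nin I g a → b g * l a = 0)
    {ι : Type*} (s : Finset ι) (f : ι → C(X, ℂ)) (g : ι → C(Z, ℂ))
    (h : ∀ x z, I x z → ∑ i ∈ s, f i x * g i z = 0) : ∑ i ∈ s, b (f i) * l (g i) = 0 := by
  classical
  let S0 : StarSubalgebra ℂ (K →L[ℂ] K) := StarAlgebra.adjoin ℂ (range b ∪ range l)
  have hcm : ∀ x ∈ range b ∪ range l, ∀ y ∈ range b ∪ range l, x * y = y * x := by
    rintro _ (⟨u, rfl⟩ | ⟨u, rfl⟩) _ (⟨v, rfl⟩ | ⟨v, rfl⟩)
    · rw [← map_mul, mul_comm, map_mul]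
    · exact hc _ _
    · exact (hc _ _).symm
    · rw [← map_mul, mul_comm, map_mul]
  have hcs : ∀ x ∈ range b ∪ range l, ∀ y ∈ range b ∪ range l, x * star y = star y * x := by
    intro x hx y hy
    refine hcm x hx (star y) ?_
    rcases hy with ⟨v, rfl⟩ | ⟨v, rfl⟩
    · exact Or.inl ⟨star v, map_star _ _⟩
    · exact Or.inr ⟨star v, map_star _ _⟩
  letI : CommRing S0 := StarAlgebra.adjoinCommRingOfComm ℂ hcm hcs
  have hS0 : ∀ x y : S0, x * y = y * x := fun x y => mul_comm x y
  let S : StarSubalgebra ℂ (K →L[ℂ] K) := S0.topologicalClosure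
  haveI : IsClosed (S : Set (K →L[ℂ] K)) := S0.isClosed_topologicalClosure
  letI cr : CommRing S := S0.commRingTopologicalClosure hS0
  have hSc : ∀ x y : S, x * y = y * x := cr.mul_comm
  letI : CommCStarAlgebra S := { (inferInstance : CStarAlgebra S) with mul_comm := hSc }
  have hbS : ∀ u, b u ∈ S := fun u =>
    S0.le_topologicalClosure (StarAlgebra.subset_adjoin ℂ _ (Or.inl ⟨u, rfl⟩))
  have hlS : ∀ u, l u ∈ S := fun u =>
    S0.le_topologicalClosure (StarAlgebra.subset_adjoin ℂ _ (Or.inr ⟨u, rfl⟩))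
  let b' : C(X, ℂ) →⋆ₐ[ℂ] S := b.codRestrict S hbS
  let l' : C(Z, ℂ) →⋆ₐ[ℂ] S := l.codRestrict S hlS
  suffices hT : ∑ i ∈ s, b' (f i) * l' (g i) = 0 by
    have := congrArg (fun t : S => (t : K →L[ℂ] K)) hT
    simpa [b', l'] using this
  apply (gelfandTransform_bijective S).1
  rw [map_zero]
  ext φ
  change φ (∑ i ∈ s, b' (f i) * l' (g i)) = 0
  obtain ⟨x, hx⟩ := char_eval ((WeakDual.CharacterSpace.toAlgHom φ).comp b'.toAlgHom)
  obtain ⟨z, hz⟩ := char_eval ((WeakDual.CharacterSpace.toAlgHom φ).comp l'.toAlgHom)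
  have hx' : ∀ u, φ (b' u) = u x := hx
  have hz' : ∀ u, φ (l' u) = u z := hz
  have hinc : I x z := by
    by_contra hn
    obtain ⟨O, V, hO, hV, hxO, hzV, hOV⟩ := isOpen_prod_iff.1 hI.isOpen_compl x z hn
    obtain ⟨u, hu, hu1⟩ := cut1 x O hO hxO
    obtain ⟨v, hv, hv1⟩ := cut1 z V hV hzV
    have h0 : b u * l v = 0 := hin u v fun x' hx' z' hz' hi =>
      hOV (mk_mem_prod (hu hx') (hv hz')) hi
    have h0' : b' u * l' v = 0 := Subtype.ext h0
    have : φ (b' u) * φ (l' v) = 0 := by rw [← map_mul, h0', map_zero]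
    rw [hx', hz', hu1, hv1, one_mul] at this
    exact one_ne_zero this
  rw [map_sum, ← h x z hinc]
  exact Finset.sum_congr rfl fun i _ => by rw [map_mul, hx', hz']

end rel

section syn

open Vale.Agent.P092.H677 (Syn syn_of_sep)

variable {Y Z K : Type*} [TopologicalSpace Y] [CompactSpace Y] [T2Space Y]
  [TopologicalSpace Z] [CompactSpace Z] [T2Space Z]
  [NormedAddCommGroup K] [InnerProductSpace ℂ K] [CompleteSpace K]

/-- a cut-off which is `1` near a support -/
theorem cut2 (u : C(Z, ℂ)) (O : Set Z) (hO : IsOpen O) (hu : tsupport ⇑u ⊆ O) :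
    ∃ χ : C(Z, ℂ), tsupport ⇑χ ⊆ O ∧ χ * u = u ∧ ∀ x, ‖χ x‖ ≤ 1 := by
  obtain ⟨χ, h1, h2, h3⟩ := exists_cut (isClosed_tsupport ⇑u) hO hu
  refine ⟨χ, h1, ?_, h3⟩
  ext x
  by_cases hx : u x = 0
  · simp [hx]
  have hx1 : x ∈ tsupport ⇑u := subset_tsupport _ hx
  have : χ x = 1 := by
    by_contra hne
    exact disjoint_left.1 h2 (subset_tsupport _ (fun h0 => hne (sub_eq_zero.1 h0).symm)) hx1
  simp [this]

lemma norm_small {f : C(Z, ℂ)} {χ : C(Z, ℂ)} {O : Set Z} (hχ : tsupport ⇑χ ⊆ O)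
    (h1 : ∀ x, ‖χ x‖ ≤ 1) {ε : ℝ} (hε : 0 ≤ ε) (h : ∀ x ∈ O, ‖f x‖ ≤ ε) : ‖f * χ‖ ≤ ε := by
  refine (ContinuousMap.norm_le _ hε).2 fun x => ?_
  rw [ContinuousMap.mul_apply, norm_mul]
  by_cases hx : χ x = 0
  · simpa [hx] using hε
  have hxO : x ∈ O := hχ (subset_tsupport _ hx)
  calc ‖f x‖ * ‖χ x‖ ≤ ε * 1 := mul_le_mul (h x hxO) (h1 x) (norm_nonneg _) hε
    _ = ε := mul_one _

/-- **SYNTHESIS FROM ONE LINEAR EQUATION** (Neumann series). -/
theorem syn_of_eq {ι : Type*} [Fintype ι] (b : C(Y, ℂ) →⋆ₐ[ℂ] (K →L[ℂ] K))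
    (l : C(Z, ℂ) →⋆ₐ[ℂ] (K →L[ℂ] K)) (hbl : ∀ u v, Commute (b u) (l v))
    (m : ι → ι → C(Y, ℂ)) (s : ι → ι → C(Z, ℂ)) (t : ℂ)
    (hm : ∀ i j, star (m i j) = m j i) (sep : ∀ x y, x ≠ y → ∃ i j, m i j x ≠ m i j y)
    (hs : ∀ i j z, ‖s i j z‖ ≤ 1)
    (hk : ∀ z z', z ≠ z' → ∑ a, ∑ c, s a c z * s c a z' ≠ t)
    (Cx : ι → ι → (K →L[ℂ] K) → (K →L[ℂ] K))
    (heq : ∀ i j (T : K →L[ℂ] K), (∀ g, Commute (b g) T) →
      t • (b (m i j) * T) = Cx i j T + ∑ a, ∑ c, l (s a c) * (b (m i j) * T) * l (s c a))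
    (hCx : ∀ i j, ∀ TT : Submodule ℂ (K →L[ℂ] K), (∀ S ∈ TT, ∀ e e', l e * S * l e' ∈ TT) →
      ∀ T ∈ TT, Cx i j T ∈ TT) : Syn b l := by
  classical
  refine syn_of_sep b l hbl {g | ∃ i j, g = m i j} ?_ ?_ ?_
  · rintro _ ⟨i, j, rfl⟩
    exact ⟨j, i, hm i j⟩
  · intro x y hxy
    obtain ⟨i, j, h⟩ := sep x y hxy
    exact ⟨_, ⟨i, j, rfl⟩, h⟩
  rintro _ ⟨i, j, rfl⟩ X U V hX hU hV a a' haa h0
  -- the closed bimodule
  let TT : Submodule ℂ (K →L[ℂ] K) :=
    { carrier := {S | U * S * V = 0}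
      add_mem' := fun {x y} hx hy => by
        change U * (x + y) * V = 0
        rw [mul_add, add_mul, show U * x * V = 0 from hx, show U * y * V = 0 from hy, add_zero]
      zero_mem' := by simp
      smul_mem' := fun c x hx => by
        change U * (c • x) * V = 0
        rw [mul_smul_comm, smul_mul_assoc, show U * x * V = 0 from hx, smul_zero] }
  have hTc : IsClosed (TT : Set (K →L[ℂ] K)) :=
    isClosed_eq (f := fun S : K →L[ℂ] K => U * S * V) (by fun_prop) continuous_const
  have hTl : ∀ S ∈ TT, ∀ e e', l e * S * l e' ∈ TT := by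
    intro S hS e e'
    change U * (l e * S * l e') * V = 0
    have : U * (l e * S * l e') * V = l e * (U * S * V) * l e' := by
      rw [show U * (l e * S * l e') * V = U * l e * S * (l e' * V) by simp only [mul_assoc],
        (hU e).eq, ← (hV e').eq]
      simp only [mul_assoc]
    rw [this, show U * S * V = 0 from hS, mul_zero, zero_mul]
  have hT0 : l a * X * l a' ∈ TT := h0
  have goal : ∀ u v : C(Z, ℂ), tsupport ⇑u ⊆ univ → tsupport ⇑v ⊆ univ →
      U * (b (m i j) * (l (u * a) * X * l (v * a'))) * V = 0 := by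
    refine two_ind (A := K →L[ℂ] K) (S₁ := (univ : Set Z)) (S₂ := (univ : Set Z))
      (fun u v => U * (b (m i j) * (l (u * a) * X * l (v * a'))) * V)
      (fun u u' v => by simp only [map_add, add_mul, mul_add])
      (fun u v v' => by simp only [map_add, add_mul, mul_add])
      isCompact_univ isCompact_univ ?_
    intro z _ z' _
    by_cases hz : z ∈ tsupport ⇑a
    swap
    · refine ⟨(tsupport ⇑a)ᶜ, univ, (isClosed_tsupport _).isOpen_compl, hz, isOpen_univ,
        mem_univ _, fun u v hu _ => ?_⟩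
      have : u * a = 0 := by
        ext x
        by_cases hx : u x = 0
        · simp [hx]
        have hx1 : x ∉ tsupport ⇑a := hu (subset_tsupport _ hx)
        have : a x = 0 := image_eq_zero_of_notMem_tsupport hx1
        simp [this]
      simp [this]
    by_cases hz' : z' ∈ tsupport ⇑a'
    swap
    · refine ⟨univ, (tsupport ⇑a')ᶜ, isOpen_univ, mem_univ _,
        (isClosed_tsupport _).isOpen_compl, hz', fun u v _ hv => ?_⟩
      have : v * a' = 0 := by
        ext x
        by_cases hx : v x = 0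
        · simp [hx]
        have hx1 : x ∉ tsupport ⇑a' := hv (subset_tsupport _ hx)
        have : a' x = 0 := image_eq_zero_of_notMem_tsupport hx1
        simp [this]
      simp [this]
    have hne : z ≠ z' := by
      rintro rfl
      exact disjoint_left.1 haa hz hz'
    set κ : ℂ := ∑ a, ∑ c, s a c z * s c a z' with hκ
    have hd : t - κ ≠ 0 := sub_ne_zero.2 (hk z z' hne).symm
    have hδ : 0 < ‖t - κ‖ := norm_pos_iff.2 hd
    obtain ⟨ε, hε, hεδ⟩ : ∃ ε : ℝ, 0 < ε ∧
        ‖t - κ‖⁻¹ * (Fintype.card ι * (Fintype.card ι * (ε + ε))) < 1 := by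
      have h1 : 0 < (Fintype.card ι : ℝ) * Fintype.card ι * 2 + 1 := by positivity
      refine ⟨‖t - κ‖ / ((Fintype.card ι : ℝ) * Fintype.card ι * 2 + 1), by positivity, ?_⟩
      have h2 : ‖t - κ‖⁻¹ * ((Fintype.card ι : ℝ) * (Fintype.card ι *
          (‖t - κ‖ / ((Fintype.card ι : ℝ) * Fintype.card ι * 2 + 1) +
          ‖t - κ‖ / ((Fintype.card ι : ℝ) * Fintype.card ι * 2 + 1)))) =
          ((Fintype.card ι : ℝ) * Fintype.card ι * 2) /
            ((Fintype.card ι : ℝ) * Fintype.card ι * 2 + 1) := by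
        field_simp
        ring
      rw [h2, div_lt_one h1]
      linarith
    -- neighbourhoods
    have nb : ∀ w : Z, ∃ O : Set Z, IsOpen O ∧ w ∈ O ∧ ∀ x ∈ O, ∀ a c, ‖s a c x - s a c w‖ ≤ ε := by
      intro w
      refine ⟨{x | ∀ a c, ‖s a c x - s a c w‖ < ε}, ?_, fun a c => by simpa using hε,
        fun x hx a c => (hx a c).le⟩
      have : {x | ∀ a c, ‖s a c x - s a c w‖ < ε} = ⋂ a, ⋂ c, {x | ‖s a c x - s a c w‖ < ε} := by
        ext x; simp
      rw [this]
      exact isOpen_iInter_of_finite fun a => isOpen_iInter_of_finite fun c =>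
        isOpen_lt (by fun_prop) continuous_const
    obtain ⟨O, hO, hzO, hOs⟩ := nb z
    obtain ⟨O', hO', hzO', hOs'⟩ := nb z'
    refine ⟨O, O', hO, hzO, hO', hzO', fun u v hu hv => ?_⟩
    obtain ⟨χ, hχ, hχu, hχ1⟩ := cut2 u O hO hu
    obtain ⟨χ', hχ', hχv, hχ1'⟩ := cut2 v O' hO' hv
    set T' : K →L[ℂ] K := l (u * a) * X * l (v * a') with hT'
    have hT'T : T' ∈ TT := by
      have : T' = l u * (l a * X * l a') * l v := by
        rw [hT', map_mul, mul_comm v a', map_mul]
        simp only [mul_assoc]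
      rw [this]
      exact hTl _ hT0 u v
    have hT'b : ∀ g, Commute (b g) T' := fun g =>
      ((hbl g _).mul_right (hX g)).mul_right (hbl g _)
    have e1 : l χ * T' = T' := by
      rw [hT', ← mul_assoc, ← mul_assoc, ← map_mul, ← mul_assoc χ u a, hχu]
    have e2 : T' * l χ' = T' := by
      rw [hT', mul_assoc, ← map_mul]
      congr 2
      rw [mul_comm, ← mul_assoc, hχv]
    set X' : K →L[ℂ] K := b (m i j) * T' with hX'
    have f1 : ∀ e, l (e * χ) * X' = l e * X' := by
      intro e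
      rw [map_mul, hX', mul_assoc, ← mul_assoc (l χ), ← (hbl (m i j) χ).eq,
        mul_assoc (b (m i j)), e1]
    have f2 : ∀ e, X' * l (e * χ') = X' * l e := by
      intro e
      rw [mul_comm e, map_mul, hX', ← mul_assoc, mul_assoc (b (m i j)), e2]
    let D : (K →L[ℂ] K) →L[ℂ] (K →L[ℂ] K) := ∑ a, ∑ c,
      (ContinuousLinearMap.mulLeftRight ℂ (K →L[ℂ] K)
          (l ((s a c - ContinuousMap.const Z (s a c z)) * χ)) (l (s c a)) +
        (s a c z) • ContinuousLinearMap.mulLeftRight ℂ (K →L[ℂ] K) 1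
          (l ((s c a - ContinuousMap.const Z (s c a z')) * χ')))
    have hDa : ∀ S, D S = ∑ a, ∑ c, (l ((s a c - ContinuousMap.const Z (s a c z)) * χ) * S * l (s c a) +
        (s a c z) • (1 * S * l ((s c a - ContinuousMap.const Z (s c a z')) * χ'))) := by
      intro S
      simp only [D, ContinuousLinearMap.sum_apply, ContinuousLinearMap.add_apply,
        ContinuousLinearMap.smul_apply, ContinuousLinearMap.mulLeftRight_apply]
    have hln : ∀ e : C(Z, ℂ), ‖l e‖ ≤ ‖e‖ := fun e => NonUnitalStarAlgHom.norm_apply_le l e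
    have hDn : ‖D‖ ≤ Fintype.card ι * (Fintype.card ι * (ε + ε)) := by
      have g1 : ∀ a c, ‖(ContinuousLinearMap.mulLeftRight ℂ (K →L[ℂ] K)
          (l ((s a c - ContinuousMap.const Z (s a c z)) * χ)) (l (s c a)) +
        (s a c z) • ContinuousLinearMap.mulLeftRight ℂ (K →L[ℂ] K) 1
          (l ((s c a - ContinuousMap.const Z (s c a z')) * χ')))‖ ≤ ε + ε := by
        intro a c
        refine (norm_add_le _ _).trans (add_le_add ?_ ?_)
        · refine (ContinuousLinearMap.opNorm_mulLeftRight_apply_apply_le ℂ _ _ _).trans ?_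
          calc _ ≤ ε * 1 := by
                refine mul_le_mul ((hln _).trans (norm_small hχ hχ1 hε.le fun x hx => ?_))
                  ((hln _).trans ((ContinuousMap.norm_le _ zero_le_one).2 fun x => hs c a x))
                  (norm_nonneg _) hε.le
                simpa using hOs x hx a c
            _ = ε := mul_one _
        · rw [norm_smul]
          refine (mul_le_mul (hs a c z) ((ContinuousLinearMap.opNorm_mulLeftRight_apply_apply_le
            ℂ _ _ _).trans ?_) (norm_nonneg _) zero_le_one).trans (one_mul _).le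
          calc _ ≤ 1 * ε := by
                refine mul_le_mul ?_ ((hln _).trans (norm_small hχ' hχ1' hε.le fun x hx => ?_))
                  (norm_nonneg _) zero_le_one
                · exact ContinuousLinearMap.norm_id_le
                · simpa using hOs' x hx c a
            _ = ε := one_mul _
      refine (norm_sum_le_of_le _ fun a _ => norm_sum_le_of_le _ fun c _ => g1 a c).trans ?_
      simp only [Finset.sum_const, nsmul_eq_mul, Finset.card_univ]
      exact le_rfl
    let L : (K →L[ℂ] K) →L[ℂ] (K →L[ℂ] K) := (t - κ)⁻¹ • D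
    have hL : ‖L‖ < 1 := by
      rw [norm_smul, norm_inv]
      exact (mul_le_mul_of_nonneg_left hDn (inv_nonneg.2 (norm_nonneg _))).trans_lt hεδ
    have hLT : ∀ S ∈ TT, L S ∈ TT := by
      intro S hS
      change (t - κ)⁻¹ • D S ∈ TT
      refine TT.smul_mem _ ?_
      rw [hDa]
      refine TT.sum_mem fun a _ => TT.sum_mem fun c _ => TT.add_mem (hTl S hS _ _)
        (TT.smul_mem _ ?_)
      have := hTl S hS 1 ((s c a - ContinuousMap.const Z (s c a z')) * χ')
      rwa [map_one] at this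
    have hX'T : X' ∈ TT := by
      refine mem_of_neumann TT hTc L hL hLT (C := (t - κ)⁻¹ • Cx i j T')
        (TT.smul_mem _ (hCx i j TT hTl T' hT'T)) ?_
      have h1 := heq i j T' hT'b
      rw [← hX'] at h1
      have h2 : D X' = (∑ a, ∑ c, l (s a c) * X' * l (s c a)) - κ • X' := by
        rw [hDa, hκ, Finset.sum_smul, ← Finset.sum_sub_distrib]
        refine Finset.sum_congr rfl fun a _ => ?_
        rw [Finset.sum_smul, ← Finset.sum_sub_distrib]
        refine Finset.sum_congr rfl fun c _ => ?_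
        rw [f1, one_mul, f2, map_sub, map_sub]
        have k1 : ∀ w : ℂ, l (ContinuousMap.const Z w) = w • 1 := by
          intro w
          rw [← map_one l, ← map_smul]
          congr 1
          ext x; simp
        rw [k1, k1, sub_mul, sub_mul, mul_sub, smul_mul_assoc, one_mul, mul_smul_comm, mul_one,
          smul_mul_assoc, smul_sub, smul_smul]
        abel
      have h3 : (t - κ) • X' = Cx i j T' + D X' := by
        rw [sub_smul, h1, h2]; abel
      have h4 : X' = (t - κ)⁻¹ • ((t - κ) • X') := by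
        rw [smul_smul, inv_mul_cancel₀ hd, one_smul]
      rw [h3, smul_add] at h4
      exact h4
    exact hX'T
  have := goal 1 1 (subset_univ _) (subset_univ _)
  rwa [one_mul, one_mul] at this

end syn

section fm

open Vale.Agent.P092.H677 (Syn)

variable {Y Z K ι : Type*} [TopologicalSpace Y] [CompactSpace Y] [T2Space Y]
  [TopologicalSpace Z] [CompactSpace Z] [T2Space Z] [Fintype ι]
  [NormedAddCommGroup K] [InnerProductSpace ℂ K] [CompleteSpace K]

/-- continuous families of hermitian projections of trace `r`, injective -/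
structure Prj (r : ℂ) (h : ι → ι → C(Y, ℂ)) : Prop where
  st : ∀ i j, star (h i j) = h j i
  id : ∀ i j x, ∑ a, h i a x * h a j x = h i j x
  tr : ∀ x, ∑ a, h a a x = r
  sep : ∀ x y, x ≠ y → ∃ i j, h i j x ≠ h i j y

omit [CompactSpace Y] [T2Space Y] in
lemma Prj.conj {r : ℂ} {h : ι → ι → C(Y, ℂ)} (H : Prj r h) (i j : ι) (x : Y) :
    (starRingEnd ℂ) (h i j x) = h j i x := by
  rw [← H.st i j]; rfl

omit [CompactSpace Y] [T2Space Y] in
lemma Prj.diag {r : ℂ} {h : ι → ι → C(Y, ℂ)} (H : Prj r h) (i : ι) (x : Y) :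
    h i i x = ((∑ a, ‖h i a x‖ ^ 2 : ℝ) : ℂ) := by
  rw [← H.id i i x]
  push_cast
  refine Finset.sum_congr rfl fun a _ => ?_
  rw [← H.conj i a x, Complex.mul_conj, Complex.normSq_eq_norm_sq]
  push_cast; rfl

omit [CompactSpace Y] [T2Space Y] in
lemma Prj.le_one {r : ℂ} {h : ι → ι → C(Y, ℂ)} (H : Prj r h) (i j : ι) (x : Y) :
    ‖h i j x‖ ≤ 1 := by
  have h0 : ∀ a, ‖h i a x‖ ^ 2 ≤ ∑ a, ‖h i a x‖ ^ 2 := fun a =>
    Finset.single_le_sum (f := fun a => ‖h i a x‖ ^ 2) (fun a _ => by positivity)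
      (Finset.mem_univ a)
  have h1 : ‖h i i x‖ = ∑ a, ‖h i a x‖ ^ 2 := by
    conv_lhs => rw [H.diag i x]
    rw [Complex.norm_real, Real.norm_of_nonneg (Finset.sum_nonneg fun a _ => by positivity)]
  have h2 : ‖h i i x‖ ^ 2 ≤ ‖h i i x‖ := by
    conv_rhs => rw [h1]
    exact h0 i
  have h3 : ‖h i i x‖ ≤ 1 := by nlinarith [norm_nonneg (h i i x)]
  have h4 : ‖h i j x‖ ^ 2 ≤ 1 := (h0 j).trans (h1 ▸ h3)
  nlinarith [norm_nonneg (h i j x)]

omit [CompactSpace Y] [T2Space Y] in
lemma Prj.tr_ne {r : ℂ} {h : ι → ι → C(Y, ℂ)} (H : Prj r h) {x y : Y} (hxy : x ≠ y) :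
    ∑ a, ∑ c, h a c x * h c a y ≠ r := by
  intro h0
  have h1 : ∀ x, ∑ a, ∑ c, h a c x * h c a x = r := fun x => by
    rw [← H.tr x]
    exact Finset.sum_congr rfl fun a _ => H.id a a x
  have h2 : ∑ a, ∑ c, h a c y * h c a x = r := by
    rw [← h0, Finset.sum_comm]
    exact Finset.sum_congr rfl fun a _ => Finset.sum_congr rfl fun c _ => mul_comm _ _
  have h3 : ((∑ a, ∑ c, ‖h a c x - h a c y‖ ^ 2 : ℝ) : ℂ) = 0 := by
    have : ((∑ a, ∑ c, ‖h a c x - h a c y‖ ^ 2 : ℝ) : ℂ) =
        ∑ a, ∑ c, (h a c x * h c a x + h a c y * h c a y - h a c x * h c a y -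
          h a c y * h c a x) := by
      push_cast
      refine Finset.sum_congr rfl fun a _ => Finset.sum_congr rfl fun c _ => ?_
      have e : ((‖h a c x - h a c y‖ : ℝ) : ℂ) ^ 2 =
          (h a c x - h a c y) * (starRingEnd ℂ) (h a c x - h a c y) := by
        rw [Complex.mul_conj, Complex.normSq_eq_norm_sq]; push_cast; rfl
      rw [e, map_sub, H.conj, H.conj]
      ring
    rw [this]
    simp only [Finset.sum_sub_distrib, Finset.sum_add_distrib]
    rw [h1, h1, h0, h2]
    ring
  have h4 : ∑ a, ∑ c, ‖h a c x - h a c y‖ ^ 2 = 0 := by exact_mod_cast h3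
  obtain ⟨i, j, hij⟩ := H.sep x y hxy
  have h5 := (Finset.sum_eq_zero_iff_of_nonneg (fun a _ => Finset.sum_nonneg fun c _ => by
    positivity)).1 h4 i (Finset.mem_univ i)
  have h6 := (Finset.sum_eq_zero_iff_of_nonneg (fun a _ => by positivity)).1 h5 j
    (Finset.mem_univ j)
  exact hij (sub_eq_zero.1 (norm_eq_zero.1 (pow_eq_zero_iff two_ne_zero |>.1 h6)))

/-- flags in a projective space, by projections: `p` of rank one, `n` of rank two -/
structure Flg (I : Y → Z → Prop) (p : ι → ι → C(Y, ℂ)) (n : ι → ι → C(Z, ℂ)) : Prop where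
  hp : Prj 1 p
  hn : Prj 2 n
  one : ∀ y i j k l, p i j y * p k l y = p i l y * p k j y
  np : ∀ y z, I y z → ∀ i j, ∑ a, n i a z * p a j y = p i j y
  pn : ∀ y z, I y z → ∀ i j, ∑ a, p i a y * n a j z = p i j y
  two : ∀ y z, I y z → ∀ i j k l, (n i j z - p i j y) * (n k l z - p k l y) =
    (n i l z - p i l y) * (n k j z - p k j y)

variable {I : Y → Z → Prop} {p : ι → ι → C(Y, ℂ)} {n : ι → ι → C(Z, ℂ)}

section ops

variable (F : Flg I p n) (hI : IsClosed {q : Y × Z | I q.1 q.2})
  (b : C(Y, ℂ) →⋆ₐ[ℂ] (K →L[ℂ] K)) (l : C(Z, ℂ) →⋆ₐ[ℂ] (K →L[ℂ] K))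
  (hbl : ∀ u v, Commute (b u) (l v)) (ibl : ∀ u v, Nin I u v → b u * l v = 0)

include F hI hbl ibl

theorem op_np (i j : ι) : ∑ a, b (p a j) * l (n i a) = b (p i j) := by
  have := rel_zero hI b l hbl ibl (Finset.univ : Finset (Option ι))
    (fun o => o.elim (p i j) fun a => - p a j) (fun o => o.elim 1 fun a => n i a) (by
      intro y z h
      rw [Fintype.sum_option]
      simp only [Option.elim_none, Option.elim_some, ContinuousMap.neg_apply, neg_mul,
        Finset.sum_neg_distrib, ContinuousMap.one_apply, mul_one]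
      rw [← F.np y z h i j, ← sub_eq_add_neg, sub_eq_zero]
      exact Finset.sum_congr rfl fun a _ => mul_comm _ _)
  rw [Fintype.sum_option] at this
  simp only [Option.elim_none, Option.elim_some, map_neg, neg_mul,
    Finset.sum_neg_distrib, map_one, mul_one] at this
  rw [← sub_eq_add_neg, sub_eq_zero] at this
  exact this.symm

theorem op_pn (i j : ι) : ∑ a, b (p i a) * l (n a j) = b (p i j) := by
  have := rel_zero hI b l hbl ibl (Finset.univ : Finset (Option ι))
    (fun o => o.elim (p i j) fun a => - p i a) (fun o => o.elim 1 fun a => n a j) (by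
      intro y z h
      rw [Fintype.sum_option]
      simp only [Option.elim_none, Option.elim_some, ContinuousMap.neg_apply, neg_mul,
        Finset.sum_neg_distrib, ContinuousMap.one_apply, mul_one]
      rw [← F.pn y z h i j, ← sub_eq_add_neg, sub_eq_zero])
  rw [Fintype.sum_option] at this
  simp only [Option.elim_none, Option.elim_some, map_neg, neg_mul,
    Finset.sum_neg_distrib, map_one, mul_one] at this
  rw [← sub_eq_add_neg, sub_eq_zero] at this
  exact this.symm

theorem op_tr : ∑ a, ∑ c, b (p a c) * l (n c a) = 1 := by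
  have h1 : ∀ a, ∑ c, b (p a c) * l (n c a) = b (p a a) := fun a =>
    op_pn F hI b l hbl ibl a a
  rw [Finset.sum_congr rfl fun a _ => h1 a, ← map_sum, ← map_one b]
  congr 1
  ext x
  rw [ContinuousMap.sum_apply, F.hp.tr]; rfl

/-- the minors of `n - p` vanish -/
theorem op_two (i j k m : ι) :
    l (n i j * n k m) - b (p k m) * l (n i j) - b (p i j) * l (n k m) =
      l (n i m * n k j) - b (p k j) * l (n i m) - b (p i m) * l (n k j) := by
  have := rel_zero hI b l hbl ibl (Finset.univ : Finset (Fin 6))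
    ![1, - p k m, - p i j, -1, p k j, p i m]
    ![n i j * n k m, n i j, n k m, n i m * n k j, n i m, n k j] (by
      intro y z h
      have e1 := F.two y z h i j k m
      have e2 := F.one y i j k m
      simp only [Fin.sum_univ_succ, Fin.sum_univ_zero, Matrix.cons_val_zero, Matrix.cons_val_succ,
        ContinuousMap.one_apply, ContinuousMap.neg_apply, ContinuousMap.mul_apply,
        Fin.succ_zero_eq_one]
      simp
      linear_combination e1 - e2)
  simp only [Fin.sum_univ_succ, Fin.sum_univ_zero, Matrix.cons_val_zero, Matrix.cons_val_succ,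
    Fin.succ_zero_eq_one] at this
  simp at this
  rw [← sub_eq_zero, ← this, map_mul, map_mul]
  abel

/-- the linear equation for concurrent lines -/
theorem eq_cc (i j : ι) (T : K →L[ℂ] K) (hT : ∀ g, Commute (b g) T) :
    (2 : ℂ) • (b (p i j) * T) =
      (∑ a, ∑ c, l (n i a * n c j) * T * l (n a c) - ∑ a, ∑ c, l (n i j * n c a) * T * l (n a c) +
        l (n i j) * T) +
      ∑ a, ∑ c, l (n c a) * (b (p i j) * T) * l (n a c) := by
  have e0 : ∀ a c, l (n i a * n c j) * T * l (n a c) - l (n i j * n c a) * T * l (n a c) =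
      l (n i a) * T * (b (p c j) * l (n a c)) + l (n c j) * T * (b (p i a) * l (n a c)) -
      l (n i j) * T * (b (p c a) * l (n a c)) - l (n c a) * (b (p i j) * T) * l (n a c) := by
    intro a c
    have h := op_two F hI b l hbl ibl i a c j
    have h' := congrArg (fun S => S * T * l (n a c)) h
    simp only [sub_mul] at h'
    have m1 : ∀ (q : C(Y, ℂ)) (e e' : C(Z, ℂ)), b q * l e * T * l e' = l e * T * (b q * l e') := by
      intro q e e'
      rw [(hbl q e).eq, mul_assoc (l e) (b q) T, (hT q).eq]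
      simp only [mul_assoc]
    have m2 : b (p i j) * l (n c a) * T * l (n a c) = l (n c a) * (b (p i j) * T) * l (n a c) := by
      rw [(hbl _ _).eq]; simp only [mul_assoc]
    rw [m1 (p c j) (n i a), m1 (p i a) (n c j), m1 (p c a) (n i j), m2, ← sub_eq_zero] at h'
    rw [← sub_eq_zero, ← h']
    abel
  have s1 : ∑ a, ∑ c, l (n i a) * T * (b (p c j) * l (n a c)) = b (p i j) * T := by
    have : ∀ a, ∑ c, l (n i a) * T * (b (p c j) * l (n a c)) = b (p a j) * l (n i a) * T := by
      intro a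
      rw [← Finset.mul_sum, op_np F hI b l hbl ibl a j, mul_assoc, ← (hT _).eq, ← mul_assoc,
        (hbl _ _).eq]
    rw [Finset.sum_congr rfl fun a _ => this a, ← Finset.sum_mul, op_np F hI b l hbl ibl i j]
  have s2 : ∑ a, ∑ c, l (n c j) * T * (b (p i a) * l (n a c)) = b (p i j) * T := by
    rw [Finset.sum_comm]
    have : ∀ c, ∑ a, l (n c j) * T * (b (p i a) * l (n a c)) = b (p i c) * l (n c j) * T := by
      intro c
      rw [← Finset.mul_sum, op_pn F hI b l hbl ibl i c, mul_assoc, ← (hT _).eq, ← mul_assoc,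
        (hbl _ _).eq]
    rw [Finset.sum_congr rfl fun a _ => this a, ← Finset.sum_mul, op_pn F hI b l hbl ibl i j]
  have s3 : ∑ a, ∑ c, l (n i j) * T * (b (p c a) * l (n a c)) = l (n i j) * T := by
    rw [Finset.sum_comm]
    simp only [← Finset.mul_sum]
    rw [op_tr F hI b l hbl ibl, mul_one]
  have e1 : ∑ a, ∑ c, l (n i a * n c j) * T * l (n a c) -
      ∑ a, ∑ c, l (n i j * n c a) * T * l (n a c) = b (p i j) * T + b (p i j) * T -
      l (n i j) * T - ∑ a, ∑ c, l (n c a) * (b (p i j) * T) * l (n a c) := by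
    have h := Finset.sum_congr (rfl : (Finset.univ : Finset ι) = Finset.univ)
      fun a _ => Finset.sum_congr (rfl : (Finset.univ : Finset ι) = Finset.univ)
        fun c _ => e0 a c
    simp only [Finset.sum_sub_distrib, Finset.sum_add_distrib] at h
    rw [s1, s2, s3] at h
    exact h
  rw [e1, two_smul]
  abel

/-- the linear equation for collinear points -/
theorem eq_col (i j : ι) (T : K →L[ℂ] K) (hT : ∀ g, Commute (l g) T) :
    l (n i j) * T =
      (b (p i j) * T + T * b (p i j) - ∑ a, b (p i a) * T * b (p a j) -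
        ∑ a, b (p a j) * T * b (p i a)) +
      ∑ a, ∑ c, b (p a c) * (l (n i j) * T) * b (p c a) := by
  have e0 : ∀ k m, l (n i j) * T * (b (p m k) * l (n k m)) - b (p k m) * (l (n i j) * T) * b (p m k)
      - b (p i j) * T * (b (p m k) * l (n k m)) =
      T * (b (p m k) * l (n i m) * l (n k j)) - b (p k j) * T * (b (p m k) * l (n i m)) -
        b (p i m) * T * (b (p m k) * l (n k j)) := by
    intro k m
    have h := op_two F hI b l hbl ibl i j k m
    have h' := congrArg (fun S => S * T * b (p m k)) h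
    simp only [sub_mul] at h'
    have m1 : ∀ (q q' : C(Y, ℂ)) (e : C(Z, ℂ)), b q * l e * T * b q' = b q * T * (b q' * l e) := by
      intro q q' e
      rw [mul_assoc (b q) (l e) T, (hT e).eq, (hbl q' e).eq]
      simp only [mul_assoc]
    have m2 : l (n i j * n k m) * T * b (p m k) = l (n i j) * T * (b (p m k) * l (n k m)) := by
      rw [map_mul, mul_assoc (l (n i j)) _ T, (hT (n k m)).eq, (hbl _ (n k m)).eq]
      simp only [mul_assoc]
    have m3 : l (n i m * n k j) * T * b (p m k) = T * (b (p m k) * l (n i m) * l (n k j)) := by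
      rw [(hT _).eq, mul_assoc, ← (hbl _ _).eq, map_mul]
      simp only [mul_assoc]
    have m4 : b (p k m) * l (n i j) * T * b (p m k) = b (p k m) * (l (n i j) * T) * b (p m k) := by
      simp only [mul_assoc]
    rw [m2, m3, m4, m1 (p i j), m1 (p k j), m1 (p i m), ← sub_eq_zero] at h'
    rw [← sub_eq_zero, ← h']
  have t0 : ∑ k, ∑ m, b (p m k) * l (n k m) = 1 := by
    rw [Finset.sum_comm]
    exact op_tr F hI b l hbl ibl
  have t1 : ∀ S : K →L[ℂ] K, ∑ k, ∑ m, S * (b (p m k) * l (n k m)) = S := by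
    intro S
    simp only [← Finset.mul_sum]
    rw [t0, mul_one]
  have t4 : ∑ k, ∑ m, T * (b (p m k) * l (n i m) * l (n k j)) = T * b (p i j) := by
    simp only [← Finset.mul_sum, ← Finset.sum_mul]
    congr 1
    rw [Finset.sum_congr rfl fun k _ => by rw [op_np F hI b l hbl ibl i k],
      op_pn F hI b l hbl ibl i j]
  have t5 : ∑ k, ∑ m, b (p k j) * T * (b (p m k) * l (n i m)) =
      ∑ a, b (p a j) * T * b (p i a) := by
    simp only [← Finset.mul_sum]
    exact Finset.sum_congr rfl fun k _ => by rw [op_np F hI b l hbl ibl i k]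
  have t6 : ∑ k, ∑ m, b (p i m) * T * (b (p m k) * l (n k j)) =
      ∑ a, b (p i a) * T * b (p a j) := by
    rw [Finset.sum_comm]
    simp only [← Finset.mul_sum]
    exact Finset.sum_congr rfl fun k _ => by rw [op_pn F hI b l hbl ibl k j]
  have e1 : l (n i j) * T - ∑ a, ∑ c, b (p a c) * (l (n i j) * T) * b (p c a) -
      b (p i j) * T = T * b (p i j) - ∑ a, b (p a j) * T * b (p i a) -
        ∑ a, b (p i a) * T * b (p a j) := by
    have := Finset.sum_congr (rfl : (Finset.univ : Finset ι) = Finset.univ)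
      fun k _ => Finset.sum_congr (rfl : (Finset.univ : Finset ι) = Finset.univ)
        fun m _ => e0 k m
    simp only [Finset.sum_sub_distrib] at this
    rw [t1, t1, t4, t5, t6] at this
    exact this
  rw [← sub_eq_zero] at e1 ⊢
  rw [← e1]
  abel

end ops

/-- **PULL-OUT, CONCURRENT LINES**: `b` = points, `l` = lines. -/
theorem syn_cc (F : Flg I p n) (hI : IsClosed {q : Y × Z | I q.1 q.2})
    (b : C(Y, ℂ) →⋆ₐ[ℂ] (K →L[ℂ] K)) (l : C(Z, ℂ) →⋆ₐ[ℂ] (K →L[ℂ] K))
    (hbl : ∀ u v, Commute (b u) (l v)) (ibl : ∀ u v, Nin I u v → b u * l v = 0) : Syn b l := by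
  refine syn_of_eq b l hbl p n 2 F.hp.st F.hp.sep F.hn.le_one (fun z z' h => F.hn.tr_ne h)
    (fun i j T => ∑ a, ∑ c, l (n i a * n c j) * T * l (n a c) -
      ∑ a, ∑ c, l (n i j * n c a) * T * l (n a c) + l (n i j) * T) (fun i j T hT => ?_) ?_
  · rw [eq_cc F hI b l hbl ibl i j T hT]
    congr 1
    rw [Finset.sum_comm]
  · intro i j TT hTT T hT
    refine TT.add_mem (TT.sub_mem (TT.sum_mem fun a _ => TT.sum_mem fun c _ => hTT T hT _ _)
      (TT.sum_mem fun a _ => TT.sum_mem fun c _ => hTT T hT _ _)) ?_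
    have := hTT T hT (n i j) 1
    rwa [map_one, mul_one] at this

/-- **PULL-OUT, COLLINEAR POINTS**: `b` = points, `l` = lines. -/
theorem syn_col (F : Flg I p n) (hI : IsClosed {q : Y × Z | I q.1 q.2})
    (b : C(Y, ℂ) →⋆ₐ[ℂ] (K →L[ℂ] K)) (l : C(Z, ℂ) →⋆ₐ[ℂ] (K →L[ℂ] K))
    (hbl : ∀ u v, Commute (b u) (l v)) (ibl : ∀ u v, Nin I u v → b u * l v = 0) : Syn l b := by
  refine syn_of_eq l b (fun u v => (hbl v u).symm) n p 1 F.hn.st F.hn.sep F.hp.le_one
    (fun z z' h => F.hp.tr_ne h)
    (fun i j T => b (p i j) * T + T * b (p i j) - ∑ a, b (p i a) * T * b (p a j) -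
        ∑ a, b (p a j) * T * b (p i a)) (fun i j T hT => ?_) ?_
  · rw [one_smul]
    exact eq_col F hI b l hbl ibl i j T hT
  · intro i j TT hTT T hT
    have h1 : ∀ e, b e * T ∈ TT := fun e => by
      have := hTT T hT e 1
      rwa [map_one, mul_one] at this
    have h2 : ∀ e, T * b e ∈ TT := fun e => by
      have := hTT T hT 1 e
      rwa [map_one, one_mul] at this
    exact TT.sub_mem (TT.sub_mem (TT.add_mem (h1 _) (h2 _))
      (TT.sum_mem fun a _ => hTT T hT _ _)) (TT.sum_mem fun a _ => hTT T hT _ _)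

end fm

end Vale.Agent.P092.H336
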