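import Vale.Agent.P092.H336.Pull
import Vale.Agent.P092.H336.Herm
import Vale.Agent.P092.H370.Sp4

/-!
P092 (helper336), Team P: the flag model by projections for points and lines over an archimedean
field, and the synthesis property `Syn` for `Sp_4(k)`.
-/

set_option linter.all false

namespace Vale.Agent.P092.H336

open Module Set Topology TopologicalSpace
open scoped LinearAlgebra.Projectivization
open Vale.Agent.P092.H100.Gr (Gr Fr sp sp_surj sp_quot sp_eq cb cb_li exists_mn mn)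
open Vale.Agent.P092.SP4 (LL on on_iff on_closed)
open Vale.Agent.P092.RC (YY)
open Vale.Agent.P092.H677 (Syn)
open Vale.Agent.P092.H232 (Nin)

section ext

variable {k : Type*} [NontriviallyNormedField k] {ι : Type*}

/-- extension of scalars -/
def ex (τ : k →+* ℂ) (v : ι → k) : ι → ℂ := fun i => τ (v i)

lemma ex_ne {τ : k →+* ℂ} {v : ι → k} (hv : v ≠ 0) : ex τ v ≠ 0 := by
  obtain ⟨i, hi⟩ := Function.ne_iff.1 hv
  refine Function.ne_iff.2 ⟨i, ?_⟩
  exact (map_ne_zero τ).2 hi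

variable [Fintype ι]

lemma nsq_ex {τ : k →+* ℂ} {v : ι → k} (hv : v ≠ 0) : nsq (ex τ v) ≠ 0 := nsq_ne' (ex_ne hv)

lemma form_ex [DecidableEq ι] (τ : k →+* ℂ) (f : (ι → k) →ₗ[k] k) (x : ι → k) :
    ∑ i, τ (f (Pi.single i 1)) * ex τ x i = τ (f x) := by
  have h : f x = ∑ i, x i * f (Pi.single i 1) := by
    conv_lhs => rw [← Finset.univ_sum_single x]
    rw [map_sum]
    refine Finset.sum_congr rfl fun i _ => ?_
    have : (Pi.single i (x i) : ι → k) = x i • Pi.single i 1 := by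
      ext j
      by_cases hj : j = i
      · subst hj; simp
      · simp [hj]
    rw [this, map_smul, smul_eq_mul]
  rw [h, map_sum]
  exact Finset.sum_congr rfl fun i _ => by rw [map_mul, mul_comm]; rfl

end ext

section pts

variable {k : Type*} [NontriviallyNormedField k] {ι : Type*} [Fintype ι] {τ : k →+* ℂ}

lemma tau_cont (hτ : ∀ x, ‖τ x‖ = ‖x‖) : Continuous τ :=
  (AddMonoidHomClass.isometry_of_norm τ hτ).continuous

lemma ex_cont (hτ : ∀ x, ‖τ x‖ = ‖x‖) (i : ι) : Continuous fun v : ι → k => ex τ v i :=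
  (tau_cont hτ).comp (continuous_apply i)

lemma cj_cont : Continuous cj := Complex.continuous_conj

lemma nsq_cont (hτ : ∀ x, ‖τ x‖ = ‖x‖) : Continuous fun v : ι → k => ((nsq (ex τ v) : ℝ) : ℂ) := by
  unfold nsq
  refine Complex.continuous_ofReal.comp (continuous_finsetSum _ fun a _ => ?_)
  exact ((ex_cont hτ a).norm).pow 2

lemma P1_mk {v : ι → k} (hv : v ≠ 0) : P1 (ex τ (Projectivization.mk k v hv).rep) =
    P1 (ex τ v) := by
  obtain ⟨a, ha⟩ := Projectivization.exists_smul_eq_mk_rep k v hv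
  rw [← ha]
  have : ex τ (a • v) = fun i => τ (a : k) * ex τ v i := by
    funext i
    change τ ((a : k) * v i) = _
    rw [map_mul]; rfl
  rw [this, P1_smul]
  exact (map_ne_zero τ).2 a.ne_zero

/-- the projections of points -/
noncomputable def pS (hτ : ∀ x, ‖τ x‖ = ‖x‖) (i j : ι) : C(ℙ k (ι → k), ℂ) :=
  ⟨fun x => P1 (ex τ x.rep) i j, by
    rw [(H820.pj_oq (k := k) (ι := ι)).isQuotientMap.continuous_iff]
    have e : (fun x : ℙ k (ι → k) => P1 (ex τ x.rep) i j) ∘ H820.pj k ι =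
        fun v : {v : ι → k // v ≠ 0} => P1 (ex τ v.1) i j := by
      funext v
      exact congrFun (congrFun (P1_mk v.2) i) j
    rw [e]
    unfold P1
    refine Continuous.div ?_ ((nsq_cont hτ).comp continuous_subtype_val) fun v => ?_
    · exact ((ex_cont hτ i).comp continuous_subtype_val).mul
        (cj_cont.comp ((ex_cont hτ j).comp continuous_subtype_val))
    · exact_mod_cast nsq_ex v.2⟩

lemma pS_apply (hτ : ∀ x, ‖τ x‖ = ‖x‖) (i j : ι) (x : ℙ k (ι → k)) :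
    pS hτ i j x = P1 (ex τ x.rep) i j := rfl

theorem prj_pS (hτ : ∀ x, ‖τ x‖ = ‖x‖) : Prj 1 (pS (ι := ι) hτ) where
  st i j := by
    ext x
    exact P1_st _ i j
  id i j x := P1_id (nsq_ex x.rep_nonzero) i j
  tr x := P1_tr (nsq_ex x.rep_nonzero)
  sep x y hxy := by
    classical
    by_contra hc
    push Not at hc
    have hy : y.rep ∉ Submodule.span k {x.rep} := by
      intro hy
      obtain ⟨c, hc⟩ := Submodule.mem_span_singleton.1 hy
      apply hxy
      have hc0 : c ≠ 0 := by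
        rintro rfl
        exact y.rep_nonzero (by rw [← hc, zero_smul])
      rw [← x.mk_rep, ← y.mk_rep]
      exact (Projectivization.mk_eq_mk_iff' k _ _ x.rep_nonzero y.rep_nonzero).2
        ⟨c⁻¹, by rw [← hc, smul_smul, inv_mul_cancel₀ hc0, one_smul]⟩
    obtain ⟨f, hfy, hf⟩ := Submodule.exists_le_ker_of_notMem hy
    have hx : f x.rep = 0 := hf (Submodule.mem_span_singleton_self _)
    obtain ⟨j, hj⟩ := Function.ne_iff.1 (ex_ne (τ := τ) y.rep_nonzero)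
    have h1 : ∑ i, τ (f (Pi.single i 1)) * P1 (ex τ x.rep) i j = 0 :=
      P1_ker (by rw [form_ex, hx, map_zero]) j
    have h2 : ∑ i, τ (f (Pi.single i 1)) * P1 (ex τ y.rep) i j =
        τ (f y.rep) * (cj (ex τ y.rep j) / (nsq (ex τ y.rep) : ℂ)) := by
      rw [← form_ex τ f y.rep, Finset.sum_mul]
      exact Finset.sum_congr rfl fun i _ => by unfold P1; ring
    have h3 : ∑ i, τ (f (Pi.single i 1)) * P1 (ex τ x.rep) i j =
        ∑ i, τ (f (Pi.single i 1)) * P1 (ex τ y.rep) i j :=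
      Finset.sum_congr rfl fun i _ => by
        have := hc i j
        rw [pS_apply, pS_apply] at this
        rw [this]
    rw [h1, h2] at h3
    have h4 : (nsq (ex τ y.rep) : ℂ) ≠ 0 := by exact_mod_cast nsq_ex y.rep_nonzero
    have h5 : cj (ex τ y.rep j) ≠ 0 := by
      intro h0
      apply hj
      have := congrArg cj h0
      rwa [cj_cj, cj_zero] at this
    exact (mul_ne_zero ((map_ne_zero τ).2 hfy) (div_ne_zero h5 h4)) h3.symm

end pts

section lines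

variable {k : Type*} [NontriviallyNormedField k] {ι : Type*} [Fintype ι] {τ : k →+* ℂ}

lemma Q_ne {v : Fin 2 → ι → k} (hv : LinearIndependent k v) :
    Q (ex τ (v 0)) (ex τ (v 1)) ≠ 0 := by
  obtain ⟨I, hI⟩ := exists_mn hv
  intro h0
  apply hI
  have h1 : Q (ex τ (v 0)) (ex τ (v 1)) (I 0) (I 1) = 0 := by rw [h0]; rfl
  have h2 : τ (mn I v) = 0 := by
    unfold mn
    rw [Matrix.det_fin_two]
    simp only [Matrix.of_apply]
    rw [map_sub, map_mul, map_mul]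
    unfold Q ex at h1
    rw [← h1]
    ring
  exact (map_eq_zero τ).1 h2

lemma Q_cb (A : Matrix (Fin 2) (Fin 2) k) (v : Fin 2 → ι → k) :
    Q (ex τ (cb A v 0)) (ex τ (cb A v 1)) = fun i j => τ A.det * Q (ex τ (v 0)) (ex τ (v 1)) i j := by
  funext i j
  unfold Q ex cb
  simp only [Fin.sum_univ_two, Pi.add_apply, Pi.smul_apply, smul_eq_mul, map_add, map_mul,
    Matrix.det_fin_two, map_sub]
  ring

/-- the projection of a plane -/
noncomputable def nG (τ : k →+* ℂ) (L : Gr k ι 2) : ι → ι → ℂ :=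
  N2 (Q (ex τ ((sp_surj L).choose.1 0)) (ex τ ((sp_surj L).choose.1 1)))

lemma nG_sp (v : Fr k ι 2) : nG τ (sp v) = N2 (Q (ex τ (v.1 0)) (ex τ (v.1 1))) := by
  obtain ⟨A, hA, h⟩ := (sp_eq v (sp_surj (sp v)).choose).1 (sp_surj (sp v)).choose_spec.symm
  unfold nG
  rw [h, Q_cb, N2_smul]
  exact (map_ne_zero τ).2 hA

lemma nG_cont (hτ : ∀ x, ‖τ x‖ = ‖x‖) (i j : ι) : Continuous fun L : Gr k ι 2 => nG τ L i j := by
  rw [sp_quot.continuous_iff]
  have e : (fun L : Gr k ι 2 => nG τ L i j) ∘ sp =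
      fun v : Fr k ι 2 => N2 (Q (ex τ (v.1 0)) (ex τ (v.1 1))) i j := by
    funext v
    exact congrFun (congrFun (nG_sp v) i) j
  rw [e]
  have hq : ∀ a b, Continuous fun v : Fr k ι 2 => Q (ex τ (v.1 0)) (ex τ (v.1 1)) a b := by
    intro a b
    unfold Q
    have h0 : ∀ (c : Fin 2) (i : ι), Continuous fun v : Fr k ι 2 => ex τ (v.1 c) i := fun c i =>
      (ex_cont hτ i).comp ((continuous_apply c).comp H100.Gr.fr_val_cont)
    exact ((h0 0 a).mul (h0 1 b)).sub ((h0 1 a).mul (h0 0 b))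
  unfold N2
  refine Continuous.div (continuous_finsetSum _ fun a _ => (hq i a).mul (cj_cont.comp (hq j a)))
    (Complex.continuous_ofReal.comp ((continuous_finsetSum _ fun a _ =>
      continuous_finsetSum _ fun b _ => ((hq a b).norm).pow 2).div_const 2)) fun v => ?_
  have h1 := Q_ne (τ := τ) v.2
  obtain ⟨a, ha⟩ := Function.ne_iff.1 h1
  obtain ⟨b, hb⟩ := Function.ne_iff.1 ha
  have h2 : 0 < ∑ a, ∑ b, ‖Q (ex τ (v.1 0)) (ex τ (v.1 1)) a b‖ ^ 2 := by
    refine Finset.sum_pos' (fun a _ => Finset.sum_nonneg fun b _ => by positivity)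
      ⟨a, Finset.mem_univ a, Finset.sum_pos' (fun b _ => by positivity)
        ⟨b, Finset.mem_univ b, ?_⟩⟩
    have : 0 < ‖Q (ex τ (v.1 0)) (ex τ (v.1 1)) a b‖ := norm_pos_iff.2 hb
    positivity
  have h3 : (∑ a, ∑ b, ‖Q (ex τ (v.1 0)) (ex τ (v.1 1)) a b‖ ^ 2) / 2 ≠ 0 := by positivity
  exact_mod_cast h3

/-- a frame which starts with a given vector -/
lemma exists_frame {L : Gr k ι 2} {y : ι → k} (hy0 : y ≠ 0) (hy : y ∈ L.1) :
    ∃ v : Fr k ι 2, sp v = L ∧ v.1 0 = y := by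
  obtain ⟨v, rfl⟩ := sp_surj L
  obtain ⟨c, hc⟩ := (Submodule.mem_span_range_iff_exists_fun k).1 hy
  rw [Fin.sum_univ_two] at hc
  by_cases h0 : c 0 = 0
  · have h1 : c 1 ≠ 0 := by
      intro h1
      apply hy0
      rw [← hc, h0, h1, zero_smul, zero_smul, add_zero]
    have hA : (!![c 0, c 1; 1, 0] : Matrix (Fin 2) (Fin 2) k).det ≠ 0 := by
      rw [Matrix.det_fin_two]; simpa using h1
    refine ⟨⟨cb !![c 0, c 1; 1, 0] v.1, cb_li hA v.2⟩, ((sp_eq _ _).2 ⟨_, hA, rfl⟩).symm, ?_⟩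
    change ∑ d, !![c 0, c 1; 1, 0] 0 d • v.1 d = y
    rw [Fin.sum_univ_two]
    simpa using hc
  · have hA : (!![c 0, c 1; 0, 1] : Matrix (Fin 2) (Fin 2) k).det ≠ 0 := by
      rw [Matrix.det_fin_two]; simpa using h0
    refine ⟨⟨cb !![c 0, c 1; 0, 1] v.1, cb_li hA v.2⟩, ((sp_eq _ _).2 ⟨_, hA, rfl⟩).symm, ?_⟩
    change ∑ d, !![c 0, c 1; 0, 1] 0 d • v.1 d = y
    rw [Fin.sum_univ_two]
    simpa using hc

lemma pl_nG {L : Gr k ι 2} {y : ι → k} (hy0 : y ≠ 0) (hy : y ∈ L.1) : Pl (ex τ y) (nG τ L) := by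
  obtain ⟨v, rfl, rfl⟩ := exists_frame hy0 hy
  obtain ⟨w, hw, ho, hQ, -⟩ := exists_orth (nsq_ex (τ := τ) hy0) (Q_ne (τ := τ) v.2)
  refine ⟨⟨w, hw, ho, fun i j => ?_⟩⟩
  rw [nG_sp, ← hQ, N2_orth (nsq_ex hy0) hw ho]

lemma nG_ker [DecidableEq ι] {L : Gr k ι 2} {f : (ι → k) →ₗ[k] k} (hf : L.1 ≤ LinearMap.ker f)
    (j : ι) : ∑ i, τ (f (Pi.single i 1)) * nG τ L i j = 0 := by
  obtain ⟨v, rfl⟩ := sp_surj L
  rw [nG_sp]
  have h0 : ∀ c : Fin 2, f (v.1 c) = 0 := fun c => hf (Submodule.subset_span ⟨c, rfl⟩)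
  have h1 : ∀ a, ∑ i, τ (f (Pi.single i 1)) * Q (ex τ (v.1 0)) (ex τ (v.1 1)) i a = 0 := by
    intro a
    have : ∀ i, τ (f (Pi.single i 1)) * Q (ex τ (v.1 0)) (ex τ (v.1 1)) i a =
        (τ (f (Pi.single i 1)) * ex τ (v.1 0) i) * ex τ (v.1 1) a -
        (τ (f (Pi.single i 1)) * ex τ (v.1 1) i) * ex τ (v.1 0) a := fun i => by
      unfold Q; ring
    rw [Finset.sum_congr rfl fun i _ => this i, Finset.sum_sub_distrib, ← Finset.sum_mul,
      ← Finset.sum_mul, form_ex, form_ex, h0, h0, map_zero, zero_mul, zero_mul, sub_zero]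
  unfold N2
  simp only [← mul_div_assoc, ← Finset.sum_div, Finset.mul_sum]
  rw [Finset.sum_comm]
  have h2 : ∀ a, ∑ i, τ (f (Pi.single i 1)) * (Q (ex τ (v.1 0)) (ex τ (v.1 1)) i a *
      cj (Q (ex τ (v.1 0)) (ex τ (v.1 1)) j a)) = 0 := by
    intro a
    rw [Finset.sum_congr rfl fun i _ => (mul_assoc _ _ _).symm, ← Finset.sum_mul, h1, zero_mul]
  rw [Finset.sum_congr rfl fun a _ => h2 a, Finset.sum_const_zero, zero_div]

lemma nG_inj {L L' : Gr k ι 2} (h : nG τ L = nG τ L') : L = L' := by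
  classical
  by_contra hne
  have h1 : ¬ L'.1 ≤ L.1 := by
    intro hle
    have := Submodule.eq_of_le_of_finrank_eq hle (L'.2.trans L.2.symm)
    exact hne (Subtype.ext this.symm)
  obtain ⟨v, hv', hv⟩ := SetLike.not_le_iff_exists.1 h1
  obtain ⟨f, hfv, hf⟩ := Submodule.exists_le_ker_of_notMem hv
  have hv0 : v ≠ 0 := by
    rintro rfl
    exact hv L.1.zero_mem
  have h2 : ∀ i, ∑ j, nG τ L i j * ex τ v j = ex τ v i := fun i => by
    rw [h]
    exact (pl_nG hv0 hv').fix (nsq_ex hv0) i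
  have h3 : τ (f v) = 0 := by
    rw [← form_ex τ f v]
    have : ∀ i, τ (f (Pi.single i 1)) * ex τ v i =
        ∑ j, τ (f (Pi.single i 1)) * nG τ L i j * ex τ v j := fun i => by
      conv_lhs => rw [← h2 i]
      rw [Finset.mul_sum]
      exact Finset.sum_congr rfl fun j _ => by ring
    rw [Finset.sum_congr rfl fun i _ => this i, Finset.sum_comm]
    have h4 : ∀ j, ∑ i, τ (f (Pi.single i 1)) * nG τ L i j * ex τ v j = 0 := fun j => by
      rw [← Finset.sum_mul, nG_ker hf, zero_mul]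
    rw [Finset.sum_congr rfl fun j _ => h4 j, Finset.sum_const_zero]
  exact (map_ne_zero τ).2 hfv h3

end lines

section s4

variable {k : Type} [NontriviallyNormedField k] {τ : k →+* ℂ}

/-- the projections of lines -/
noncomputable def nS (hτ : ∀ x, ‖τ x‖ = ‖x‖) (i j : Fin 4) : C(LL k, ℂ) :=
  ⟨fun l => nG τ l.1 i j, (nG_cont hτ i j).comp SP4.val_cont⟩

lemma nS_apply (hτ : ∀ x, ‖τ x‖ = ‖x‖) (i j : Fin 4) (l : LL k) : nS hτ i j l = nG τ l.1 i j := rfl

/-- a nonzero vector of a line -/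
lemma exists_vec (L : Gr k (Fin 4) 2) : ∃ y ∈ L.1, y ≠ 0 := by
  obtain ⟨v, rfl⟩ := sp_surj L
  exact ⟨v.1 0, Submodule.subset_span ⟨0, rfl⟩, v.2.ne_zero 0⟩

theorem prj_nS (hτ : ∀ x, ‖τ x‖ = ‖x‖) : Prj 2 (nS (k := k) hτ) where
  st i j := by
    ext l
    obtain ⟨y, hy, hy0⟩ := exists_vec l.1
    exact (pl_nG hy0 hy).st i j
  id i j l := by
    obtain ⟨y, hy, hy0⟩ := exists_vec l.1
    exact (pl_nG hy0 hy).id (nsq_ex hy0) i j
  tr l := by
    obtain ⟨y, hy, hy0⟩ := exists_vec l.1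
    exact (pl_nG hy0 hy).tr (nsq_ex hy0)
  sep l l' h := by
    by_contra hc
    push Not at hc
    apply h
    refine Subtype.ext (nG_inj (τ := τ) ?_)
    funext i j
    exact hc i j

/-- the flag model of the symplectic quadrangle over `ℝ` and `ℂ` -/
theorem flg_s4 (hτ : ∀ x, ‖τ x‖ = ‖x‖) : Flg (on (k := k)) (pS hτ) (nS hτ) where
  hp := prj_pS hτ
  hn := prj_nS hτ
  one y i j a b := P1_one _ i j a b
  np y z h i j := (pl_nG y.rep_nonzero (on_iff.1 h)).np (nsq_ex y.rep_nonzero) i j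
  pn y z h i j := (pl_nG y.rep_nonzero (on_iff.1 h)).pn (nsq_ex y.rep_nonzero) i j
  two y z h i j a b := (pl_nG y.rep_nonzero (on_iff.1 h)).two i j a b

variable {K : Type*} [NormedAddCommGroup K] [InnerProductSpace ℂ K] [CompleteSpace K]
  [ProperSpace k]

/-- **SYNTHESIS FOR CONCURRENT LINES**, `k = ℝ` or `ℂ`. -/
theorem synS4_cc (hτ : ∀ x, ‖τ x‖ = ‖x‖) (b : C(YY k 3, ℂ) →⋆ₐ[ℂ] (K →L[ℂ] K))
    (l : C(LL k, ℂ) →⋆ₐ[ℂ] (K →L[ℂ] K)) (hbl : ∀ u v, Commute (b u) (l v))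
    (ibl : ∀ u v, Nin on u v → b u * l v = 0) : Syn b l :=
  syn_cc (flg_s4 hτ) on_closed b l hbl ibl

/-- **SYNTHESIS FOR COLLINEAR POINTS**, `k = ℝ` or `ℂ`. -/
theorem synS4_col (hτ : ∀ x, ‖τ x‖ = ‖x‖) (b : C(YY k 3, ℂ) →⋆ₐ[ℂ] (K →L[ℂ] K))
    (l : C(LL k, ℂ) →⋆ₐ[ℂ] (K →L[ℂ] K)) (hbl : ∀ u v, Commute (b u) (l v))
    (ibl : ∀ u v, Nin on u v → b u * l v = 0) : Syn l b :=
  syn_col (flg_s4 hτ) on_closed b l hbl ibl

end s4

end Vale.Agent.P092.H336
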