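import Vale.Agent.P092.SP.Blocks
import Vale.Agent.P092.H336.PullS4
import Vale.Agent.P092.H495.GrTd
import Vale.Agent.P092.H515.RkDef

/-!
P092 (helper336), Team P, row [P-SYN]: `SynStmt k` for every local field `k`.
-/

set_option linter.all false

open scoped LinearAlgebra.Projectivization
open Topology TopologicalSpace

namespace Vale.Agent.P092.H336

open Vale.Agent.P092.SP4 (LL on on_closed on_unique)
open Vale.Agent.P092.RC (YY)
open Vale.Agent.P092.H677 (Syn syn_td)
open Vale.Agent.P092.H515.St (LocK)
open Vale.Agent.P092.H232 (Nin)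
open Vale.Agent.P092.H100.Gr (Gr)

/-- archimedean fields -/
theorem synStmt_arch {k : Type} [NontriviallyNormedField k] [ProperSpace k] {τ : k →+* ℂ}
    (hτ : ∀ x, ‖τ x‖ = ‖x‖) : SP.SynStmt k := by
  intro K _ _ _ b l h
  exact ⟨synS4_cc hτ b l h.com h.inc, synS4_col hτ b l h.com h.inc⟩

instance tdLL {k : Type} [NontriviallyNormedField k] [ProperSpace k] [IsUltrametricDist k] :
    TotallyDisconnectedSpace (LL k) :=
  inferInstanceAs (TotallyDisconnectedSpace
    {l : Gr k (Fin 4) 2 // ∀ x ∈ l.1, ∀ y ∈ l.1, SP4.om x y = 0})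

/-- ultrametric fields -/
theorem synStmt_ultra {k : Type} [NontriviallyNormedField k] [ProperSpace k]
    [IsUltrametricDist k] : SP.SynStmt k := by
  intro K _ _ _ b l h
  refine ⟨syn_td (I := on) on_closed ?_ b l h.com h.inc,
    syn_td (I := flip on) ?_ ?_ l b (fun u v => (h.com v u).symm) ?_⟩
  · intro y y' n n' hn h1 h2 h3 h4
    by_contra hne
    exact hn (on_unique hne h1 h3 h2 h4)
  · exact on_closed.preimage (f := fun q : LL k × YY k 3 => (q.2, q.1)) (by fun_prop)
  · intro y y' n n' hn h1 h2 h3 h4
    exact on_unique hn h1 h2 h3 h4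
  · intro u v huv
    have := h.inc v u fun x hx z hz => huv z hz x hx
    rw [← (h.com v u).eq, this]

/-- **[P-SYN]**, every local field -/
theorem synStmt {k : Type} [NontriviallyNormedField k] [ProperSpace k] (hk : LocK k) :
    SP.SynStmt k := by
  cases hk with
  | real φ h =>
    refine synStmt_arch (τ := (algebraMap ℝ ℂ).comp φ.toRingHom) fun x => ?_
    rw [← h x]
    exact Complex.norm_real _
  | cplx φ h => exact synStmt_arch (τ := φ.toRingHom) h
  | ultra h => exact synStmt_ultra

end Vale.Agent.P092.H336
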